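import Vale.Agent.P291.HX.HXCore
import Vale.Agent.P291.H564.JB

/-!
# P291, stage HPX: dictionary between the type level definitions and the one ring format
-/

set_option linter.unusedSectionVars false

open MvPolynomial

namespace Vale.Agent.P291.HX

universe u v w

section arr

variable {B : Type u} {E : Type v} {k : Type w} [Fintype B] [DecidableEq B] [Fintype E]
  [CommRing k]

theorem rename_xo {B' : Type*} (f : B' → B) (o : Option B') :
    rename f (xo k o) = (xo k (o.map f) : MvPolynomial B k) := by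
  cases o with
  | none => simp [xo]
  | some x => exact rename_X f x

theorem toP_X_self (b : B) : toP (k := k) b (X b) = Polynomial.X := by
  simp [toP]

theorem toP_X_ne {b x : B} (h : x ≠ b) :
    toP (k := k) b (X x) = Polynomial.C (X ⟨x, h⟩) := by
  simp [toP, h]

theorem toP_C (b : B) (c : k) : toP b (C c) = Polynomial.C (C c) := by
  rw [← MvPolynomial.algebraMap_eq, AlgHom.commutes]
  rfl

/-- `Psi` is `toP` followed by the inclusion of the coefficients. -/
theorem Psi_eq_map_toP (b : B) (G : MvPolynomial B k) :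
    JF.Psi b G = (toP b G).map (rename (R := k) (Subtype.val : Del b → B)).toRingHom := by
  induction G using MvPolynomial.induction_on with
  | C c =>
    rw [JF.Psi_of_fr (JF.C_mem_fr b c), toP_C, Polynomial.map_C]
    congr 1
    exact (rename_C _ c).symm
  | add p q hp hq => rw [map_add, map_add, Polynomial.map_add, hp, hq]
  | mul_X p x hp =>
    rw [map_mul, map_mul, Polynomial.map_mul, hp]
    congr 1
    by_cases h : x = b
    · rw [h, JF.Psi_X_self, toP_X_self, Polynomial.map_X]
    · rw [JF.Psi_X_ne h, toP_X_ne h, Polynomial.map_C]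
      congr 1
      exact (rename_X (R := k) (Subtype.val : Del b → B) (⟨x, h⟩ : Del b)).symm

namespace DA

variable (A : DA B E k)

theorem mem_Out_singleton {b : B} {e : E} :
    e ∈ A.Out {b} ↔ A.tl e = some b ∧ A.hd e ≠ some b := by
  simp [Out, oU]

theorem toP_w_monic {b : B} {e : E} (he : e ∈ A.Out {b}) : (toP b (A.w e)).Monic := by
  rw [mem_Out_singleton] at he
  unfold w
  rw [map_add, map_sub, he.1]
  change (toP b (X b) - _ + _).Monic
  rw [toP_X_self, toP_C]
  cases ho : A.hd e with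
  | none =>
    have : toP b (xo k (none : Option B)) = 0 := by
      change toP b 0 = 0
      exact map_zero _
    rw [this, sub_zero]
    exact Polynomial.monic_X_add_C _
  | some x =>
    have hx : x ≠ b := fun h => he.2 (by rw [ho, h])
    have : toP b (xo k (some x)) = Polynomial.C (X ⟨x, hx⟩) := toP_X_ne hx
    rw [this, sub_add, ← Polynomial.C_sub]
    exact Polynomial.monic_X_sub_C _

theorem toP_Y_monic (b : B) : (toP b (A.Y {b})).Monic := by
  unfold Y
  rw [map_prod]
  exact Polynomial.monic_prod_of_monic _ _ fun e he => A.toP_w_monic he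

theorem Psi_Y_monic (b : B) : (JF.Psi b (A.Y {b})).Monic := by
  rw [Psi_eq_map_toP]
  exact (A.toP_Y_monic b).map _

/-- (D1) -/
theorem rename_Res (b : B) (G : MvPolynomial B k) :
    rename (Subtype.val : Del b → B) (A.Res b G) = JF.res b (A.Y {b}) G := by
  nontriviality (MvPolynomial B k)
  unfold Res JF.res
  rw [Psi_eq_map_toP, Psi_eq_map_toP, ← Polynomial.map_modByMonic _ (A.toP_Y_monic b),
    Polynomial.coeff_map, (A.toP_Y_monic b).natDegree_map]
  rfl

end DA

end arr

section quiver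

variable {I E B k : Type*} [Fintype E] [DecidableEq I] [Fintype B] [DecidableEq B] [CommRing k]
  [IsDomain k]

/-- the edges of the quiver without `b` as edges of the quiver -/
def edEmb (Q : QD I E B k) (b : B) (e : (Q.del b).Ed) : Q.Ed :=
  (⟨(e.1.1.1, e.1.1.2.1.1, e.1.1.2.2.map Subtype.val), by
    refine ⟨⟨e.1.2.1.1, ?_⟩, ?_⟩
    · refine Eq.trans ?_ e.1.2.1.2
      unfold QD.vo
      rw [Option.map_map]
      rfl
    · intro h
      apply e.1.2.2
      obtain ⟨x, hx, hx'⟩ := Option.map_eq_some_iff.1 h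
      rw [hx]
      exact congrArg some (Subtype.ext hx')⟩, e.2)

theorem edEmb_tl (Q : QD I E B k) (h : k) (b : B) (e : (Q.del b).Ed) :
    (Q.dir h).tl (edEmb Q b e) = (((Q.del b).dir h).tl e).map Subtype.val := by
  unfold QD.dir edEmb
  rcases e with ⟨p, _ | _⟩ <;> rfl

theorem edEmb_hd (Q : QD I E B k) (h : k) (b : B) (e : (Q.del b).Ed) :
    (Q.dir h).hd (edEmb Q b e) = (((Q.del b).dir h).hd e).map Subtype.val := by
  unfold QD.dir edEmb
  rcases e with ⟨p, _ | _⟩ <;> rfl

theorem edEmb_c (Q : QD I E B k) (h : k) (b : B) (e : (Q.del b).Ed) :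
    (Q.dir h).c (edEmb Q b e) = ((Q.del b).dir h).c e := by
  unfold QD.dir edEmb
  rcases e with ⟨p, _ | _⟩ <;> rfl

theorem edEmb_w (Q : QD I E B k) (h : k) (b : B) (e : (Q.del b).Ed) :
    (Q.dir h).w (edEmb Q b e) = rename (Subtype.val : Del b → B) (((Q.del b).dir h).w e) := by
  unfold DA.w
  rw [edEmb_tl, edEmb_hd, edEmb_c, map_add, map_sub, rename_xo, rename_xo, rename_C]

theorem edEmb_injective (Q : QD I E B k) (b : B) : Function.Injective (edEmb Q b) := by
  rintro ⟨⟨⟨a, x, o⟩, hp⟩, s⟩ ⟨⟨⟨a', x', o'⟩, hp'⟩, s'⟩ h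
  simp only [edEmb, Prod.mk.injEq, Subtype.mk.injEq] at h
  obtain ⟨⟨h1, h2, h3⟩, h4⟩ := h
  have h5 : x = x' := Subtype.ext h2
  have h6 : o = o' := Option.map_injective Subtype.val_injective h3
  subst h1 h4 h5 h6
  rfl

/-- the image of `edEmb` -/
theorem exists_edEmb (Q : QD I E B k) (h : k) (b : B) (e : Q.Ed) (h1 : (Q.dir h).tl e ≠ some b)
    (h2 : (Q.dir h).hd e ≠ some b) : ∃ e', edEmb Q b e' = e := by
  rcases e with ⟨⟨⟨a, x, o⟩, ⟨⟨hp1, hp2⟩, hp3⟩⟩, s⟩
  have hx : x ≠ b := by
    rintro rfl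
    cases s with
    | false => exact h1 rfl
    | true => exact h2 rfl
  have ho : o ≠ some b := by
    rintro rfl
    cases s with
    | false => exact h2 rfl
    | true => exact h1 rfl
  have ho' : (dn b o ho).map Subtype.val = o := by
    cases o with
    | none => rfl
    | some y => rfl
  refine ⟨(⟨(a, ⟨x, hx⟩, dn b o ho), ⟨hp1, ?_⟩, ?_⟩, s), ?_⟩
  · refine Eq.trans ?_ hp2
    change Option.map (Q.vx ∘ Subtype.val) (dn b o ho) = Option.map Q.vx o
    rw [← Option.map_map, ho']
  · intro h3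
    apply hp3
    have h3' : dn b o ho = some ⟨x, hx⟩ := h3
    rw [← ho', h3']
    rfl
  · simp only [edEmb, ho']

/-- (D2) -/
theorem rename_dir_Y (Q : QD I E B k) (h : k) (b : B) (U : Finset (Del b)) :
    rename (Subtype.val : Del b → B) (((Q.del b).dir h).Y U) =
      ∏ e ∈ Finset.univ.filter (fun e : Q.Ed => (∃ x ∈ U, (Q.dir h).tl e = some x.1) ∧
        (Q.dir h).hd e ≠ some b ∧ ¬ ∃ x ∈ U, (Q.dir h).hd e = some x.1), (Q.dir h).w e := by
  unfold DA.Y
  rw [map_prod]
  have key : ∀ o : Option (Del b), o ∈ oU U ↔ ∃ x ∈ U, o.map Subtype.val = some x.1 := by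
    intro o
    unfold oU
    rw [Finset.mem_map]
    constructor
    · rintro ⟨x, hx, rfl⟩
      exact ⟨x, hx, rfl⟩
    · rintro ⟨x, hx, h2⟩
      refine ⟨x, hx, ?_⟩
      have : (some x : Option (Del b)).map Subtype.val = o.map Subtype.val := h2.symm
      exact Option.map_injective Subtype.val_injective this
  refine Finset.prod_bij (fun e _ => edEmb Q b e) ?_ ?_ ?_ ?_
  · intro e he
    rw [DA.Out, Finset.mem_filter] at he
    rw [Finset.mem_filter, edEmb_tl, edEmb_hd]
    refine ⟨Finset.mem_univ _, (key _).1 he.2.1, ?_, fun h2 => he.2.2 ((key _).2 h2)⟩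
    intro h2
    obtain ⟨x, -, hx⟩ := Option.map_eq_some_iff.1 h2
    exact x.2 hx
  · intro e _ e' _ hee
    exact edEmb_injective Q b hee
  · intro e he
    rw [Finset.mem_filter] at he
    obtain ⟨-, ⟨x, hx, h1⟩, h2, h3⟩ := he
    obtain ⟨e', rfl⟩ := exists_edEmb Q h b e (by
      rw [h1]
      intro h4
      exact x.2 (Option.some.inj h4)) h2
    refine ⟨e', ?_, rfl⟩
    rw [DA.Out, Finset.mem_filter]
    rw [edEmb_tl] at h1
    rw [edEmb_hd] at h3
    exact ⟨Finset.mem_univ _, (key _).2 ⟨x, hx, h1⟩, fun h4 => h3 ((key _).1 h4)⟩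
  · intro e _
    exact (edEmb_w Q h b e).symm

end quiver

end Vale.Agent.P291.HX
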