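import Vale.Agent.P291.Core2

/-!
# P291, stage HPX: the Hausel-Proudfoot presentation.  Frozen definitions

`DA` = directed affine arrangements: an edge `e` from `tl e` to `hd e` (`none` = framing box, root
`0`) has the form `x_{tl e} - x_{hd e} + c e`.
-/

open MvPolynomial

namespace Vale.Agent.P291.HX

universe u v w

/-- The boxes different from `u`. -/
abbrev Del {B : Type u} (b : B) : Type u := {x : B // x ≠ b}

/-- An extended box different from `u` as an extended box of `Del u`. -/
def dn {B : Type u} (b : B) : (o : Option B) → o ≠ some b → Option (Del b)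
  | none, _ => none
  | some x, h => some ⟨x, fun hx => h (congrArg some hx)⟩

/-- Directed affine arrangement. -/
structure DA (B : Type u) (E : Type v) (k : Type w) where
  /-- tail -/
  tl : E → Option B
  /-- head -/
  hd : E → Option B
  /-- constant -/
  c : E → k

/-- `U` as a set of extended boxes -/
def oU {B : Type u} (U : Finset B) : Finset (Option B) := U.map Function.Embedding.some

/-- A polynomial as a polynomial in `x_b` over the polynomials in the other variables. -/
noncomputable def toP {B : Type u} [DecidableEq B] {k : Type w} [CommRing k] (b : B) :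
    MvPolynomial B k →ₐ[k] Polynomial (MvPolynomial (Del b) k) :=
  aeval fun x => if h : x = b then Polynomial.X else Polynomial.C (X ⟨x, h⟩)

namespace DA

variable {B : Type u} {E : Type v} {k : Type w} [Fintype B] [DecidableEq B] [Fintype E]
  [CommRing k]
variable (A : DA B E k)

/-- The form of an edge. -/
noncomputable def w (e : E) : MvPolynomial B k := xo k (A.tl e) - xo k (A.hd e) + C (A.c e)

/-- The edges leaving `U`. -/
def Out (U : Finset B) : Finset E :=
  Finset.univ.filter fun e => A.tl e ∈ oU U ∧ A.hd e ∉ oU U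

/-- The product of the forms of the edges leaving `U`. -/
noncomputable def Y (U : Finset B) : MvPolynomial B k := ∏ e ∈ A.Out U, A.w e

/-- The directed cut ideal. -/
noncomputable def I : Ideal (MvPolynomial B k) :=
  Ideal.span {g | ∃ U : Finset B, U.Nonempty ∧ g = A.Y U}

/-- The product of the forms of the edges into `b` (the framing box counts as a tail). -/
noncomputable def Yin (b : B) : MvPolynomial B k :=
  ∏ e ∈ Finset.univ.filter (fun e => A.hd e = some b ∧ A.tl e ≠ some b), A.w e

/-- Remove the box `b` and all edges that touch it. -/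
def res (b : B) : DA (Del b) {e : E // A.tl e ≠ some b ∧ A.hd e ≠ some b} k where
  tl e := dn b (A.tl e.1) e.2.1
  hd e := dn b (A.hd e.1) e.2.2
  c e := A.c e.1

/-- The residue at `x_b = ∞`: the coefficient of `x_b ^ (d - 1)` of `G` modulo `Y {b}`, where `d`
is the degree of `Y {b}` in `x_b` (zero if `d = 0`). -/
noncomputable def Res (b : B) (G : MvPolynomial B k) : MvPolynomial (Del b) k :=
  (toP b G %ₘ toP b (A.Y {b})).coeff ((toP b (A.Y {b})).natDegree - 1)

/-- Change of coefficients. -/
def map {k' : Type*} (φ : k → k') : DA B E k' where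
  tl := A.tl
  hd := A.hd
  c e := φ (A.c e)

/-- Arborescences: every box gets an edge out of it, and following these edges one reaches the
framing box. -/
def IsArb (f : B → E) : Prop :=
  (∀ b, A.tl (f b) = some b) ∧ ∃ ρ : B → ℕ, ∀ b b', A.hd (f b) = some b' → ρ b' < ρ b

/-- `x` is a point where the forms of all the edges `f b` vanish. -/
def IsPt (f : B → E) (x : B → k) : Prop :=
  ∀ b, x b - (A.hd (f b)).elim 0 x + A.c (f b) = 0

open Classical in
/-- The point where the forms of all the edges `f b` vanish. -/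
noncomputable def pt (f : B → E) : B → k := if h : ∃ x, A.IsPt f x then h.choose else 0

/-- Generic constants. -/
def Gen : Prop :=
  ∀ n : E → ℤ, (∀ e, n e = -1 ∨ n e = 0 ∨ n e = 1) → n ≠ 0 → ∑ e, (n e : k) * A.c e ≠ 0

open Classical in
/-- The functional for generic constants: the sum over the arborescences `f` of
`G(x_f) / ∏_{e ∉ f} w_e(x_f)` (over the edges `e` with `tl e ≠ hd e`). -/
noncomputable def J {κ : Type*} [Field κ] (A : DA B E κ) (G : MvPolynomial B κ) : κ :=
  ∑ f ∈ Finset.univ.filter (fun f : B → E => A.IsArb f), eval (A.pt f) G /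
    ∏ e ∈ Finset.univ.filter (fun e => e ∉ Set.range f ∧ A.tl e ≠ A.hd e),
      eval (A.pt f) (A.w e)

end DA

/-- The limit functionals, defined by recursion on the number `n` of boxes. -/
def Good {k : Type w} [CommRing k] : ℕ → ∀ {B : Type u} {E : Type v} [Fintype B] [DecidableEq B]
    [Fintype E], DA B E k → (MvPolynomial B k →ₗ[k] k) → Prop
  | 0, _, _, _, _, _, _, j => ∀ G, j G = constantCoeff G
  | n + 1, B, _, _, _, _, A, j => (∀ g ∈ A.I, j g = 0) ∧
      ∀ b : B, ∃ j' : MvPolynomial (Del b) k →ₗ[k] k, Good n (A.res b) j' ∧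
        ∀ G, j (G * A.Yin b) = j' (A.Res b G)

end Vale.Agent.P291.HX

namespace Vale.Agent.P291

open MvPolynomial

namespace QD

variable {I E B Λ : Type*} [Fintype E] [DecidableEq I] [Fintype B] [DecidableEq B] [CommRing Λ]
  [IsDomain Λ]
variable (Q : QD I E B Λ)

/-- Remove a box. -/
def del (b : B) : QD I E (HX.Del b) Λ where
  src := Q.src
  tgt := Q.tgt
  vx x := Q.vx x.1
  t := Q.t

/-- Change of coefficients. -/
def chg' {Λ' : Type*} (φ : Λ → Λ') : QD I E B Λ' where
  src := Q.src
  tgt := Q.tgt
  vx := Q.vx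
  t a := φ (Q.t a)

/-- The directed edges: every weight `p = (a, b, o)` with `o ≠ some b` in both directions. -/
abbrev Ed : Type _ :=
  {p : E × B × Option B // (Q.vx p.2.1 = Q.src p.1 ∧ Q.vo p.2.2 = Q.tgt p.1) ∧ p.2.2 ≠ some p.2.1} ×
    Bool

/-- The directed arrangement with parameter `h`: the edge `b → o` with form `h - ξ_p` (`false`) and
the edge `o → b` with form `h + ξ_p` (`true`). -/
def dir (h : Λ) : HX.DA B Q.Ed Λ where
  tl e := if e.2 then e.1.1.2.2 else some e.1.1.2.1
  hd e := if e.2 then some e.1.1.2.1 else e.1.1.2.2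
  c e := if e.2 then h + Q.t e.1.1.1 else h - Q.t e.1.1.1

/-- `e(h) = ∏ (x_b - x_b') (2 h - x_b + x_b')` over ordered pairs of distinct boxes at the same
vertex. -/
noncomputable def EB (h : Λ) : SS B Λ :=
  ∏ p ∈ Q.Prs.filter (fun p => p.1 ≠ p.2), ((X p.1 - X p.2) * (C (2 * h) - X p.1 + X p.2))

/-- `∏ (x_v - x_b) (2 h + x_b - x_v)` over the boxes `v ≠ b` at the vertex of `b`. -/
noncomputable def Ec (h : Λ) (b : B) : SS B Λ :=
  ∏ v ∈ Finset.univ.filter (fun v => v ≠ b ∧ Q.vx v = Q.vx b),
    ((X v - X b) * (C (2 * h) + X b - X v))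

/-- The Hausel-Proudfoot ideal: `{F|_{h=0} : F ∈ R[h], e(h) F ∈ I_T^{h,+}}`. -/
def JHP : Set (SS B Λ) :=
  {f | ∃ F : MvPolynomial B (Polynomial Λ), (∀ σ ∈ Q.W, rename σ F = F) ∧
    MvPolynomial.map (Polynomial.evalRingHom 0) F = f ∧
    (Q.chg' Polynomial.C).EB Polynomial.X * F ∈ ((Q.chg' Polynomial.C).dir Polynomial.X).I}

end QD

end Vale.Agent.P291
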