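import Vale.Agent.P291.H125.HP11
import Vale.Agent.P291.HX.HXCore

/-!
# P291, stage HPX, block HP: `J_C` is contained in the Hausel-Proudfoot ideal
-/

open MvPolynomial

set_option linter.unusedSectionVars false

namespace Vale.Agent.P291.HX.HPB

noncomputable section

open H125 (Rel)
open HP (EH hcut ITh)

variable {I E B Λ : Type*} [Fintype E] [DecidableEq I] [Fintype B] [DecidableEq B] [CommRing Λ]
  [IsDomain Λ]
variable (Q : QD I E B Λ)

theorem mem_oU (U : Finset B) (b : B) : some b ∈ oU U ↔ b ∈ U := by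
  unfold oU
  simp

theorem none_oU (U : Finset B) : none ∉ oU U := by
  unfold oU
  simp

/-- the cut products over the weights -/
def YW (h : Λ) (U : Finset B) : SS B Λ :=
  ∏ p ∈ Q.Wt, ((if p.2.1 ∈ U ∧ p.2.2 ∉ oU U then C h - Q.xi p else 1) *
    (if p.2.2 ∈ oU U ∧ p.2.1 ∉ U then C h + Q.xi p else 1))

theorem Y_eq (h : Λ) (U : Finset B) : (Q.dir h).Y U = YW Q h U := by
  unfold DA.Y DA.Out
  rw [Finset.prod_filter, Fintype.prod_prod_type]
  unfold YW QD.Wt
  have h1 : ∀ p : {p : E × B × Option B //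
      (Q.vx p.2.1 = Q.src p.1 ∧ Q.vo p.2.2 = Q.tgt p.1) ∧ p.2.2 ≠ some p.2.1},
      (∏ y : Bool, if (Q.dir h).tl (p, y) ∈ oU U ∧ (Q.dir h).hd (p, y) ∉ oU U
        then (Q.dir h).w (p, y) else 1) =
      (if p.1.2.1 ∈ U ∧ p.1.2.2 ∉ oU U then C h - Q.xi p.1 else 1) *
        (if p.1.2.2 ∈ oU U ∧ p.1.2.1 ∉ U then C h + Q.xi p.1 else 1) := by
    intro p
    rw [Fintype.prod_bool, mul_comm]
    congr 1
    · have e1 : (Q.dir h).tl (p, false) = some p.1.2.1 := rfl
      have e2 : (Q.dir h).hd (p, false) = p.1.2.2 := rfl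
      have e3 : (Q.dir h).w (p, false) = C h - Q.xi p.1 := by
        have : (Q.dir h).w (p, false) = X p.1.2.1 - xo Λ p.1.2.2 + C (h - Q.t p.1.1) := rfl
        rw [this]
        unfold QD.xi
        rw [map_sub]
        ring
      rw [e1, e2, e3]
      exact if_congr (by rw [mem_oU]) rfl rfl
    · have e1 : (Q.dir h).tl (p, true) = p.1.2.2 := rfl
      have e2 : (Q.dir h).hd (p, true) = some p.1.2.1 := rfl
      have e3 : (Q.dir h).w (p, true) = C h + Q.xi p.1 := by
        have : (Q.dir h).w (p, true) = xo Λ p.1.2.2 - X p.1.2.1 + C (h + Q.t p.1.1) := rfl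
        rw [this]
        unfold QD.xi
        rw [map_add]
        ring
      rw [e1, e2, e3]
      exact if_congr (by rw [mem_oU]) rfl rfl
  rw [Finset.prod_congr rfl (fun p _ => h1 p)]
  rw [← Finset.prod_subtype (Finset.univ.filter fun p : E × B × Option B =>
      (Q.vx p.2.1 = Q.src p.1 ∧ Q.vo p.2.2 = Q.tgt p.1) ∧ p.2.2 ≠ some p.2.1) (by simp)
    (fun p => (if p.2.1 ∈ U ∧ p.2.2 ∉ oU U then C h - Q.xi p else 1) *
        (if p.2.2 ∈ oU U ∧ p.2.1 ∉ U then C h + Q.xi p else 1))]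
  rw [Finset.prod_filter, Finset.prod_filter]
  refine Finset.prod_congr rfl fun p _ => ?_
  by_cases hA : Q.vx p.2.1 = Q.src p.1 ∧ Q.vo p.2.2 = Q.tgt p.1
  · by_cases ho : p.2.2 = some p.2.1
    · rw [if_neg (fun e => e.2 ho), if_pos hA, ho]
      by_cases hU : p.2.1 ∈ U
      · rw [if_neg, if_neg, one_mul]
        · rintro ⟨_, h3⟩
          exact h3 hU
        · rintro ⟨_, h3⟩
          exact h3 ((mem_oU U _).mpr hU)
      · rw [if_neg, if_neg, one_mul]
        · rintro ⟨h3, _⟩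
          exact hU ((mem_oU U _).mp h3)
        · rintro ⟨h3, _⟩
          exact hU h3
    · rw [if_pos ⟨hA, ho⟩, if_pos hA]
  · rw [if_neg (fun e => hA e.1), if_neg hA]

/-- the data with the weights `t + h` -/
def Qh : QD I E B (Polynomial Λ) where
  src := Q.src
  tgt := Q.tgt
  vx := Q.vx
  t a := Polynomial.C (Q.t a) + Polynomial.X

theorem Qh_xi (p : E × B × Option B) :
    (Qh Q).xi p = C Polynomial.X + (Q.chg' (Λ' := Polynomial Λ) Polynomial.C).xi p := by
  unfold QD.xi Qh QD.chg'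
  simp only [map_add]
  ring

theorem ITh_le : ITh (Qh Q) (2 * Polynomial.X) (fun _ => 1) ≤
    ((Q.chg' (Λ' := Polynomial Λ) Polynomial.C).dir Polynomial.X).I := by
  unfold ITh
  rw [Ideal.span_le]
  rintro g ⟨V, hV, rfl⟩
  have hn : none ∈ V := by
    by_contra hn
    have : 0 ≤ ∑ b, (1 : ℤ) * lamV V b := by
      refine Finset.sum_nonneg fun b _ => ?_
      rw [one_mul, HP.lamV_apply, if_neg hn]
      split_ifs <;> norm_num
    exact absurd hV (not_lt.2 this)
  set U : Finset B := Finset.univ.filter (fun b => some b ∉ V) with hU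
  have hU' : ∀ b, b ∈ U ↔ some b ∉ V := by intro b; simp [hU]
  have hUo : ∀ o, o ∈ oU U ↔ o ∉ V := by
    intro o
    rcases o with _ | b
    · exact ⟨fun h => absurd h (none_oU U), fun h => absurd hn h⟩
    · rw [mem_oU, hU']
  have hne : U.Nonempty := by
    rw [Finset.nonempty_iff_ne_empty]
    intro h0
    have : ∑ b, (1 : ℤ) * lamV V b = 0 := by
      refine Finset.sum_eq_zero fun b _ => ?_
      have hb : some b ∈ V := by
        by_contra hb
        have := (hU' b).2 hb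
        rw [h0] at this
        exact absurd this (Finset.notMem_empty b)
      rw [HP.lamV_apply, if_pos hb, if_pos hn]
      norm_num
    rw [this] at hV
    exact lt_irrefl _ hV
  refine Ideal.subset_span ⟨U, hne, ?_⟩
  rw [Y_eq]
  unfold hcut YW
  have hW : (Qh Q).Wt = (Q.chg' (Λ' := Polynomial Λ) Polynomial.C).Wt := rfl
  rw [hW]
  refine Finset.prod_congr rfl fun p _ => ?_
  have he : lamV V p.2.1 - ext (lamV V) p.2.2 =
      (if some p.2.1 ∈ V then 1 else 0) - (if p.2.2 ∈ V then 1 else 0) := by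
    rw [HP.ext_lamV]; simp only [lamV, HP.ind]; ring
  have he' : ext (lamV V) p.2.2 - lamV V p.2.1 =
      (if p.2.2 ∈ V then 1 else 0) - (if some p.2.1 ∈ V then 1 else 0) := by
    rw [HP.ext_lamV]; simp only [lamV, HP.ind]; ring
  rw [he, he', Qh_xi]
  simp only [hUo, hU']
  by_cases h1 : some p.2.1 ∈ V <;> by_cases h2 : p.2.2 ∈ V
  · simp [h1, h2]
  · simp [h1, h2]
  · simp only [h1, h2, if_true, if_false]
    simp [map_ofNat]
    ring
  · simp [h1, h2]

theorem EH_eq_EB : EH (Qh Q) (2 * Polynomial.X) =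
    (Q.chg' (Λ' := Polynomial Λ) Polynomial.C).EB Polynomial.X := by
  unfold EH QD.EB
  have hW : (Qh Q).Prs = (Q.chg' (Λ' := Polynomial Λ) Polynomial.C).Prs := rfl
  rw [hW]
  refine Finset.prod_congr rfl fun p _ => ?_
  ring

theorem JC_sub_JHP_of_nonzeroLoops [Algebra ℚ Λ] (hQ : Q.NonzeroLoops) : Q.JC ⊆ Q.JHP := by
  intro f hf
  have : CharZero Λ := algebraRat.charZero Λ
  have hR : Rel Q (Qh Q) (Polynomial.evalRingHom 0) :=
    ⟨rfl, rfl, rfl, fun a => by simp [Qh]⟩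
  obtain ⟨r, hr1, hr2, hr3⟩ := HP.HP_lift hR
    (fun c => ⟨Polynomial.C c, by simp⟩) (h := 2 * Polynomial.X)
    (mul_ne_zero two_ne_zero Polynomial.X_ne_zero) (by simp) (by
      intro x hx
      have h1 : Polynomial.X ∣ x := by
        rw [Polynomial.X_dvd_iff, Polynomial.coeff_zero_eq_eval_zero]
        exact hx
      obtain ⟨y, rfl⟩ := h1
      refine ⟨Polynomial.C (algebraMap ℚ Λ (1 / 2)) * y, ?_⟩
      have h3 : (2 : Polynomial Λ) * Polynomial.C (algebraMap ℚ Λ (1 / 2)) = 1 := by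
        have h2 : (2 : Polynomial Λ) = Polynomial.C (algebraMap ℚ Λ 2) := by
          rw [map_ofNat, map_ofNat]
        rw [h2, ← Polynomial.C_mul, ← map_mul]
        norm_num
      calc Polynomial.X * y = (2 * Polynomial.C (algebraMap ℚ Λ (1 / 2))) * (Polynomial.X * y) := by
            rw [h3, one_mul]
        _ = _ := by ring) hQ (fun _ => 1) (by
      intro U hU
      simp only [Finset.sum_const, nsmul_eq_mul, mul_one]
      exact_mod_cast (Finset.card_pos.2 hU).ne') hf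
  refine ⟨r, hr1, hr2, ?_⟩
  rw [← EH_eq_EB]
  exact ITh_le Q hr3

/-! ### zero loop weights -/

variable {Q} {Λ₁ : Type*} [CommRing Λ₁] [IsDomain Λ₁] {Q₁ : QD I E B Λ₁} {ψ : Λ₁ →+* Λ}

theorem map_YW (hR : Rel Q Q₁ ψ) (h : Λ₁) (U : Finset B) :
    map ψ (YW Q₁ h U) = YW Q (ψ h) U := by
  unfold YW
  rw [map_prod, hR.Wt_eq]
  refine Finset.prod_congr rfl fun p _ => ?_
  rw [map_mul, apply_ite (map ψ), apply_ite (map ψ), map_sub, map_add, map_C, hR.map_xi, map_one]

theorem map_I (hR : Rel Q Q₁ ψ) (h : Λ₁) {x : SS B Λ₁} (hx : x ∈ (Q₁.dir h).I) :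
    map ψ x ∈ (Q.dir (ψ h)).I := by
  have hle : (Q₁.dir h).I ≤ Ideal.comap (map ψ) (Q.dir (ψ h)).I := by
    unfold DA.I
    rw [Ideal.span_le]
    rintro g ⟨U, hU, rfl⟩
    rw [SetLike.mem_coe, Ideal.mem_comap, Y_eq, map_YW hR, ← Y_eq]
    exact Ideal.subset_span ⟨U, hU, rfl⟩
  exact hle hx

theorem map_EB (hR : Rel Q Q₁ ψ) (h : Λ₁) : map ψ (Q₁.EB h) = Q.EB (ψ h) := by
  unfold QD.EB
  rw [map_prod, hR.Prs_eq]
  refine Finset.prod_congr rfl fun p _ => ?_
  simp only [map_mul, map_sub, map_add, map_X, map_C, map_ofNat]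

theorem JHP_map (hR : Rel Q Q₁ ψ) {f : SS B Λ₁} (hf : f ∈ Q₁.JHP) : map ψ f ∈ Q.JHP := by
  obtain ⟨F, hF1, hF2, hF3⟩ := hf
  have hR' : Rel (Q.chg' (Λ' := Polynomial Λ) Polynomial.C)
      (Q₁.chg' (Λ' := Polynomial Λ₁) Polynomial.C) (Polynomial.mapRingHom ψ) := by
    refine ⟨hR.1, hR.2.1, hR.2.2.1, fun a => ?_⟩
    show Polynomial.C (Q.t a) = Polynomial.mapRingHom ψ (Polynomial.C (Q₁.t a))
    rw [hR.2.2.2, Polynomial.coe_mapRingHom, Polynomial.map_C]
  refine ⟨map (Polynomial.mapRingHom ψ) F, ?_, ?_, ?_⟩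
  · intro σ hσ
    rw [← MvPolynomial.map_rename, hF1 σ (by rw [← hR.W_eq]; exact hσ)]
  · rw [← hF2, MvPolynomial.map_map, MvPolynomial.map_map]
    congr 1
    congr 1
    refine Polynomial.ringHom_ext ?_ ?_
    · intro a
      simp
    · simp
  · have h1 := map_I hR' Polynomial.X hF3
    rw [map_mul, map_EB hR'] at h1
    have h2 : Polynomial.mapRingHom ψ Polynomial.X = Polynomial.X := by simp
    rw [h2] at h1
    exact h1

variable (Q)

/-- generic weights -/
def hat : QD I E B (MvPolynomial E Λ) where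
  src := Q.src
  tgt := Q.tgt
  vx := Q.vx
  t a := X a

/-- **`J_C` is contained in the Hausel-Proudfoot ideal.** -/
theorem JC_sub_JHP [Algebra ℚ Λ] : Q.JC ⊆ Q.JHP := by
  intro f hf
  have hR : Rel Q (hat Q) (MvPolynomial.eval Q.t) :=
    ⟨rfl, rfl, rfl, fun a => by simp [hat]⟩
  have hN : (hat Q).NonzeroLoops := fun a _ => MvPolynomial.X_ne_zero a
  obtain ⟨f', hf', hf''⟩ := JC_lift Q (hat Q) hN (MvPolynomial.eval Q.t)
    (fun c => ⟨C c, by simp⟩) hR hf
  rw [← hf'']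
  exact JHP_map hR (JC_sub_JHP_of_nonzeroLoops (hat Q) hN hf')

end

end Vale.Agent.P291.HX.HPB

namespace Vale.Agent.P291.HX

/-- **`J_C` is contained in the Hausel-Proudfoot ideal.** -/
theorem JC_sub_JHP {I E B Λ : Type*} [Fintype E] [DecidableEq I] [Fintype B] [DecidableEq B]
    [CommRing Λ] [IsDomain Λ] [Algebra ℚ Λ] (Q : QD I E B Λ) : Q.JC ⊆ Q.JHP :=
  HPB.JC_sub_JHP Q

end Vale.Agent.P291.HX
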