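import Vale.Agent.P291.H564.JD
import Vale.Agent.P291.HX.Dict
import Vale.Agent.P291.H809.HXSym

/-!
# P291, stage HPX: the functional for the directed arrangement of a quiver
-/

set_option linter.unusedSectionVars false

open MvPolynomial

namespace Vale.Agent.P291.HX

section abs

variable {B P k : Type*} [CommRing k] [Fintype B] [DecidableEq B] [Fintype P] [DecidableEq P]
  (A : DA B P k)

theorem mem_oU {U : Finset B} {o : Option B} : o ∈ oU U ↔ ∃ b ∈ U, o = some b := by
  unfold oU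
  rw [Finset.mem_map]
  constructor
  · rintro ⟨b, hb, rfl⟩; exact ⟨b, hb, rfl⟩
  · rintro ⟨b, hb, rfl⟩; exact ⟨b, hb, rfl⟩

theorem Y_univ (U : Finset B) : JF.Y A Finset.univ U = A.Y U := by
  unfold JF.Y DA.Y
  refine Finset.prod_congr ?_ fun _ _ => rfl
  ext e
  rw [JF.mem_Lv, DA.Out, Finset.mem_filter, mem_oU, mem_oU]
  constructor
  · rintro ⟨h1, _, h2⟩
    exact ⟨Finset.mem_univ _, h1, h2⟩
  · rintro ⟨_, h1, h2⟩
    exact ⟨h1, Finset.mem_insertNone.2 fun a _ => Finset.mem_univ a, h2⟩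

theorem In_univ (b : B) : JF.In A Finset.univ b = A.Yin b := by
  unfold JF.In DA.Yin
  refine Finset.prod_congr ?_ fun _ _ => rfl
  ext e
  rw [JF.mem_En, Finset.mem_filter]
  constructor
  · rintro ⟨h1, _, h2⟩
    exact ⟨Finset.mem_univ _, h1, h2⟩
  · rintro ⟨_, h1, h2⟩
    exact ⟨h1, Finset.mem_insertNone.2 fun a _ => Finset.mem_univ a, h2⟩

theorem I_univ : A.I = JF.I A Finset.univ := by
  unfold JF.I DA.I
  congr 1
  ext g
  constructor
  · rintro ⟨U, hU, rfl⟩
    exact ⟨U, Finset.subset_univ _, hU, (Y_univ A U).symm⟩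
  · rintro ⟨U, _, hU, rfl⟩
    exact ⟨U, hU, Y_univ A U⟩

end abs

section quiver

variable {I E B : Type} [Fintype E] [DecidableEq I] [Fintype B] [DecidableEq B]

/-- substitution of zero for `x_b` -/
noncomputable def rho {k : Type} [Field k] (b : B) : SS B k →ₐ[k] SS (Del b) k :=
  aeval fun x => if h : x = b then 0 else X ⟨x, h⟩

theorem rho_rename {k : Type} [Field k] (b : B) (g : SS (Del b) k) :
    rho b (rename (Subtype.val : Del b → B) g) = g := by
  rw [rho, aeval_rename]
  have : (fun x : B => if h : x = b then (0 : SS (Del b) k) else X ⟨x, h⟩) ∘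
      (Subtype.val : Del b → B) = X := by
    funext x
    exact dif_neg x.2
  rw [this, aeval_X_left_apply]

theorem rename_rho {k : Type} [Field k] (b : B) (g : SS B k) :
    rename (Subtype.val : Del b → B) (rho b g) = JF.eps b g := by
  have : (rename (R := k) (Subtype.val : Del b → B)).comp (rho b) = JF.eps b := by
    apply MvPolynomial.algHom_ext
    intro x
    rw [AlgHom.comp_apply, rho, aeval_X]
    by_cases h : x = b
    · rw [dif_pos h, map_zero, h, JF.eps_X_self]
    · rw [dif_neg h, rename_X, JF.eps_X_ne h]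
  exact DFunLike.congr_fun this g

theorem pos_dir {k : Type} [Field k] [CharZero k] (Q : QD I E B k) (h : k)
    (lam : k →+ ℚ) (h1 : lam h = 1) (h0 : ∀ a, lam (Q.t a) = 0) : JF.Pos (Q.dir h) := by
  intro n hn
  apply IsUnit.mk0
  intro hz
  have h2 : ∀ e, lam ((Q.dir h).c e) = 1 := by
    intro e
    unfold QD.dir
    dsimp only
    split_ifs
    · rw [map_add, h1, h0, add_zero]
    · rw [map_sub, h1, h0, sub_zero]
  have h3 : lam (∑ e, n e • (Q.dir h).c e) = ∑ e, (n e : ℚ) := by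
    rw [map_sum]
    refine Finset.sum_congr rfl fun e _ => ?_
    rw [map_nsmul, h2, nsmul_eq_mul, mul_one]
  rw [hz, map_zero] at h3
  apply hn
  funext e
  have h4 := (Finset.sum_eq_zero_iff_of_nonneg (fun e _ => Nat.cast_nonneg (α := ℚ) (n e))).1
    h3.symm e (Finset.mem_univ e)
  exact_mod_cast h4

theorem Y_eq_rename {k : Type} [Field k] (Q : QD I E B k) (h : k) (b : B) {U : Finset B}
    (hU : U ⊆ Finset.univ.erase b) : JF.Y (Q.dir h) (Finset.univ.erase b) U =
      rename (Subtype.val : Del b → B) (((Q.del b).dir h).Y (U.subtype (· ≠ b))) := by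
  classical
  rw [rename_dir_Y]
  unfold JF.Y
  refine Finset.prod_congr ?_ fun _ _ => rfl
  have key : ∀ o : Option B, (∃ x ∈ U.subtype (· ≠ b), o = some x.1) ↔ ∃ x ∈ U, o = some x := by
    intro o
    constructor
    · rintro ⟨x, hx, h⟩
      exact ⟨x.1, Finset.mem_subtype.1 hx, h⟩
    · rintro ⟨x, hx, h⟩
      exact ⟨⟨x, (Finset.mem_erase.1 (hU hx)).1⟩, Finset.mem_subtype.2 hx, h⟩
  ext e
  rw [JF.mem_Lv, Finset.mem_filter, key, key, JF.mem_insertNone_erase]
  constructor
  · rintro ⟨h1, ⟨_, h2⟩, h3⟩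
    exact ⟨Finset.mem_univ _, h1, h2, h3⟩
  · rintro ⟨_, h1, h2, h3⟩
    exact ⟨h1, ⟨Finset.mem_insertNone.2 fun a _ => Finset.mem_univ a, h2⟩, h3⟩

theorem exists_j {k : Type} [Field k] [CharZero k] (Q : QD I E B k) (h : k)
    (lam : k →+ ℚ) (h1 : lam h = 1) (h0 : ∀ a, lam (Q.t a) = 0) (b : B) :
    ∃ (j : SS B k →ₗ[k] k) (j' : SS (Del b) k →ₗ[k] k),
      (∀ g ∈ (Q.dir h).I, j g = 0) ∧
      (∀ σ ∈ Q.W, ∀ G, j (rename σ G) = j G) ∧
      (∀ G, j (G * (Q.dir h).Yin b) = j' ((Q.dir h).Res b G)) ∧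
      (∀ σ ∈ (Q.del b).W, ∀ g, j' (rename σ g) = j' g) ∧
      ∀ H, (∀ g, j' (g * H) = 0) → H ∈ ((Q.del b).dir h).I := by
  classical
  have hA := pos_dir Q h lam h1 h0
  refine ⟨JF.jj hA Finset.univ, (JF.jj hA (Finset.univ.erase b)).comp
    (rename (R := k) (Subtype.val : Del b → B)).toLinearMap, ?_, ?_, ?_, ?_, ?_⟩
  · intro g hg
    rw [I_univ] at hg
    exact JF.jj_kill hA _ g hg
  · intro σ hσ G
    have := JF.jj_symm (σ := σ) (τ := S3.edEquiv Q σ hσ) hA (S3.tl_ed Q h σ hσ)
      (S3.hd_ed Q h σ hσ) (S3.c_ed Q h σ hσ) Finset.univ G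
    rwa [Finset.map_univ_equiv] at this
  · intro G
    rw [← In_univ, JF.jj_step hA _ b (Finset.mem_univ b), Y_univ, ← DA.rename_Res]
    rfl
  · intro σ hσ g
    change JF.jj hA (Finset.univ.erase b) (rename Subtype.val (rename σ g)) =
      JF.jj hA (Finset.univ.erase b) (rename Subtype.val g)
    rw [S3.rename_ofSubtype]
    obtain ⟨h2, h3⟩ := S3.ofSubtype_mem Q b σ hσ
    have h4 := JF.jj_symm (σ := Equiv.Perm.ofSubtype σ) (τ := S3.edEquiv Q _ h2) hA
      (S3.tl_ed Q h _ h2) (S3.hd_ed Q h _ h2) (S3.c_ed Q h _ h2) (Finset.univ.erase b)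
      (rename Subtype.val g)
    have h5 : (Finset.univ.erase b).map (Equiv.Perm.ofSubtype σ : Equiv.Perm B).toEmbedding =
        Finset.univ.erase b := by
      rw [Finset.map_erase, Finset.map_univ_equiv]
      change Finset.univ.erase ((Equiv.Perm.ofSubtype σ : Equiv.Perm B) b) = _
      rw [h3]
    rwa [h5] at h4
  · intro H hH
    have h2 : rename (Subtype.val : Del b → B) H ∈ JF.I' (Q.dir h) (Finset.univ.erase b) := by
      refine JF.jj_nondeg' hA _ _ fun G => ?_
      have e1 : G * rename (Subtype.val : Del b → B) H =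
          (G - JF.eps b G) * rename Subtype.val H + rename Subtype.val (rho b G * H) := by
        rw [map_mul, rename_rho]; ring
      obtain ⟨q, hq⟩ := Ideal.mem_span_singleton'.1 (JF.sub_eps_mem b G)
      rw [e1, map_add, ← hq]
      have e2 : q * X b * rename (Subtype.val : Del b → B) H =
          X b * (q * rename (Subtype.val : Del b → B) H) := by ring
      rw [e2, JF.jj_X hA _ b (Finset.notMem_erase b _), zero_add]
      exact hH (rho b G)
    have h3 : JF.I' (Q.dir h) (Finset.univ.erase b) ≤ (((Q.del b).dir h).I).comap (rho b) := by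
      refine sup_le (Ideal.span_le.2 ?_) (Ideal.span_le.2 ?_)
      · rintro f ⟨U, hU, hne, rfl⟩
        rw [SetLike.mem_coe, Ideal.mem_comap, Y_eq_rename Q h b hU, rho_rename]
        refine Ideal.subset_span ⟨_, ?_, rfl⟩
        obtain ⟨x, hx⟩ := hne
        exact ⟨⟨x, (Finset.mem_erase.1 (hU hx)).1⟩, Finset.mem_subtype.2 hx⟩
      · rintro f ⟨x, hx, rfl⟩
        have hxb : x = b := by
          by_contra hxb
          exact hx (Finset.mem_erase.2 ⟨hxb, Finset.mem_univ x⟩)
        rw [SetLike.mem_coe, Ideal.mem_comap, hxb, rho, aeval_X, dif_pos rfl]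
        exact zero_mem _
    have h4 := h3 h2
    rwa [Ideal.mem_comap, rho_rename] at h4

end quiver

end Vale.Agent.P291.HX
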