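import Vale.Agent.P291.HX.HXCore

/-!
# P291, block HX6a: Lagrange
-/

open MvPolynomial

namespace Vale.Agent.P291.HX

namespace H6a

open scoped Classical

/-- Lagrange: the sum of `N (c l) / ∏ (c l - c j)` is integral. -/
theorem lag {T ι : Type*} [CommRing T] [IsDomain T] [Fintype ι] [DecidableEq ι] (c : ι → T)
    (hc : Function.Injective c) (N : Polynomial T) (a : ι → T) (D : T)
    (ha : ∀ l, a l * ∏ j ∈ Finset.univ.erase l, (c l - c j) = D) :
    ∃ r : T, ∑ l, N.eval (c l) * a l = D * r := by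
  let K := FractionRing T
  let i : T →+* K := algebraMap T K
  have hi : Function.Injective i := IsFractionRing.injective T K
  let q : Polynomial T := ∏ l, (Polynomial.X - Polynomial.C (c l))
  have hq : q.Monic := Polynomial.monic_prod_of_monic _ _ fun l _ => Polynomial.monic_X_sub_C _
  let M : Polynomial T := N %ₘ q
  have hM : ∀ l, M.eval (c l) = N.eval (c l) := by
    intro l
    have h1 := Polynomial.modByMonic_add_div N q
    have h2 : q.eval (c l) = 0 := by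
      rw [Polynomial.eval_prod]
      exact Finset.prod_eq_zero (Finset.mem_univ l) (by simp)
    have h3 := congrArg (Polynomial.eval (c l)) h1
    rw [Polynomial.eval_add, Polynomial.eval_mul, h2, zero_mul, add_zero] at h3
    exact h3
  have hdeg : (M.map i).degree < (Finset.univ : Finset ι).card := by
    refine lt_of_le_of_lt Polynomial.degree_map_le ?_
    have h1 := Polynomial.degree_modByMonic_lt N hq
    have h2 : q.degree = (Finset.univ : Finset ι).card := by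
      rw [Polynomial.degree_prod]
      simp
    rw [← h2]; exact h1
  have hv : Set.InjOn (fun l => i (c l)) (Finset.univ : Finset ι) :=
    fun x _ y _ hxy => hc (hi hxy)
  have h1 := Lagrange.coeff_eq_sum hv hdeg
  refine ⟨M.coeff ((Finset.univ : Finset ι).card - 1), hi ?_⟩
  rw [map_mul, map_sum]
  rw [Polynomial.coeff_map] at h1
  rw [h1, Finset.mul_sum]
  apply Finset.sum_congr rfl
  intro l _
  have h2 : i D = i (a l) * ∏ j ∈ Finset.univ.erase l, (i (c l) - i (c j)) := by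
    rw [← ha l, map_mul, map_prod]
    simp
  have h3 : ∏ j ∈ Finset.univ.erase l, (i (c l) - i (c j)) ≠ 0 := by
    rw [Finset.prod_ne_zero_iff]
    intro j hj
    exact sub_ne_zero.2 fun e => (Finset.ne_of_mem_erase hj) (hc (hi e)).symm
  have h4 : Polynomial.eval (i (c l)) (M.map i) = i (N.eval (c l)) := by
    rw [Polynomial.eval_map, Polynomial.eval₂_hom, hM]
  symm
  change i D * (Polynomial.eval (i (c l)) (M.map i) /
    ∏ j ∈ Finset.univ.erase l, (i (c l) - i (c j))) = _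
  rw [h4, h2, map_mul, mul_comm (i (a l)), mul_assoc, mul_comm, mul_assoc, div_mul_cancel₀ _ h3,
    mul_comm]

section

variable {I E B : Type*} [Fintype E] [DecidableEq I] [Fintype B] [DecidableEq B]
variable {k : Type*} (Q : QD I E B k)

theorem prod_Ed {M : Type*} [CommMonoid M] (φ : E × B × Option B → Bool → Prop)
    (f : E × B × Option B → Bool → M) :
    ∏ e ∈ Finset.univ.filter (fun e : Q.Ed => φ e.1.1 e.2), f e.1.1 e.2 =
      (∏ p ∈ Q.Wt.filter (fun p => p.2.2 ≠ some p.2.1 ∧ φ p false), f p false) *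
      ∏ p ∈ Q.Wt.filter (fun p => p.2.2 ≠ some p.2.1 ∧ φ p true), f p true := by
  have key : ∀ c : Bool, ∏ p : {p : E × B × Option B //
      (Q.vx p.2.1 = Q.src p.1 ∧ Q.vo p.2.2 = Q.tgt p.1) ∧ p.2.2 ≠ some p.2.1},
        (if φ p.1 c then f p.1 c else 1) =
      ∏ p ∈ Q.Wt.filter (fun p => p.2.2 ≠ some p.2.1 ∧ φ p c), f p c := by
    intro c
    rw [← Finset.prod_subtype (p := fun p : E × B × Option B =>
      (Q.vx p.2.1 = Q.src p.1 ∧ Q.vo p.2.2 = Q.tgt p.1) ∧ p.2.2 ≠ some p.2.1)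
      (Q.Wt.filter (fun p => p.2.2 ≠ some p.2.1)) (f := fun p => if φ p c then f p c else 1)]
    · rw [← Finset.prod_filter, Finset.filter_filter]
    · intro p
      unfold QD.Wt
      rw [Finset.mem_filter, Finset.mem_filter]
      simp
  rw [Finset.prod_filter, Fintype.prod_prod_type]
  simp only [Fintype.prod_bool]
  rw [Finset.prod_mul_distrib, key true, key false, mul_comm]

variable [Field k] (h : k)

/-- the form of a directed edge -/
noncomputable def ff (p : E × B × Option B) (c : Bool) : SS B k :=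
  xo k (if c then p.2.2 else some p.2.1) - xo k (if c then some p.2.1 else p.2.2) +
    C (if c then h + Q.t p.1 else h - Q.t p.1)

omit [DecidableEq B] [Field k] in
theorem mem_Wt (p : E × B × Option B) :
    p ∈ Q.Wt ↔ Q.vx p.2.1 = Q.src p.1 ∧ Q.vo p.2.2 = Q.tgt p.1 := by
  unfold QD.Wt
  rw [Finset.mem_filter]
  simp

omit [Fintype E] [DecidableEq I] [Fintype B] [DecidableEq B] in
theorem w_eq (e : Q.Ed) : (Q.dir h).w e = ff Q h e.1.1 e.2 := rfl

theorem Y_eq (v : B) : (Q.dir h).Y {v} =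
    (∏ q ∈ Finset.univ.filter (fun q : E × Option B =>
      (Q.src q.1 = Q.vx v ∧ Q.vo q.2 = Q.tgt q.1) ∧ q.2 ≠ some v),
        (X v - xo k q.2 + C (h - Q.t q.1))) *
    ∏ q ∈ Finset.univ.filter (fun q : E × B =>
      (Q.tgt q.1 = some (Q.vx v) ∧ Q.vx q.2 = Q.src q.1) ∧ q.2 ≠ v),
        (X v - X q.2 + C (h + Q.t q.1)) := by
  have h1 := prod_Ed Q (fun p c => (if c then p.2.2 else some p.2.1) ∈ oU {v} ∧
    (if c then some p.2.1 else p.2.2) ∉ oU {v}) (ff Q h)
  refine Eq.trans ?_ (h1.trans ?_)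
  · unfold DA.Y DA.Out
    apply Finset.prod_congr
    · ext e
      simp only [Finset.mem_filter]
      exact Iff.rfl
    · intro e _
      exact w_eq Q h e
  congr 1
  · refine Finset.prod_nbij' (fun p => (p.1, p.2.2)) (fun q => (q.1, v, q.2)) ?_ ?_ ?_ ?_ ?_
    · rintro ⟨a, b, o⟩ hp
      simp [mem_Wt, oU] at hp ⊢
      obtain ⟨⟨h3, h4⟩, h5, h6, h7⟩ := hp
      subst h6
      exact ⟨⟨h3.symm, h4⟩, h5⟩
    · rintro ⟨a, o⟩ hq
      simp [mem_Wt, oU] at hq ⊢
      exact ⟨⟨hq.1.1.symm, hq.1.2⟩, hq.2⟩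
    · rintro ⟨a, b, o⟩ hp
      simp [mem_Wt, oU] at hp ⊢
      exact hp.2.2.1.symm
    · rintro ⟨a, o⟩ _
      rfl
    · rintro ⟨a, b, o⟩ hp
      simp [mem_Wt, oU] at hp
      obtain ⟨⟨h3, h4⟩, h5, h6, h7⟩ := hp
      subst h6
      simp [ff, xo]
  · refine Finset.prod_nbij' (fun p => (p.1, p.2.1)) (fun q => (q.1, q.2, some v)) ?_ ?_ ?_ ?_ ?_
    · rintro ⟨a, b, o⟩ hp
      simp [mem_Wt, oU] at hp ⊢
      obtain ⟨⟨h3, h4⟩, h5, h6, h7⟩ := hp
      subst h6
      refine ⟨⟨?_, h3⟩, fun e => h7 e⟩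
      rw [← h4]; rfl
    · rintro ⟨a, b⟩ hq
      simp [mem_Wt, oU, QD.vo] at hq ⊢
      exact ⟨⟨hq.1.2, hq.1.1.symm⟩, fun e => hq.2 e.symm, hq.2⟩
    · rintro ⟨a, b, o⟩ hp
      simp [mem_Wt, oU] at hp ⊢
      exact hp.2.2.1.symm
    · rintro ⟨a, o⟩ _
      rfl
    · rintro ⟨a, b, o⟩ hp
      simp [mem_Wt, oU] at hp
      obtain ⟨⟨h3, h4⟩, h5, h6, h7⟩ := hp
      subst h6
      simp [ff, xo]

theorem Yin_eq (v : B) : (Q.dir h).Yin v =
    (∏ q ∈ Finset.univ.filter (fun q : E × Option B =>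
      (Q.src q.1 = Q.vx v ∧ Q.vo q.2 = Q.tgt q.1) ∧ q.2 ≠ some v),
        (xo k q.2 - X v + C (h + Q.t q.1))) *
    ∏ q ∈ Finset.univ.filter (fun q : E × B =>
      (Q.tgt q.1 = some (Q.vx v) ∧ Q.vx q.2 = Q.src q.1) ∧ q.2 ≠ v),
        (X q.2 - X v + C (h - Q.t q.1)) := by
  have h1 := prod_Ed Q (fun p c => (if c then some p.2.1 else p.2.2) = some v ∧
    (if c then p.2.2 else some p.2.1) ≠ some v) (ff Q h)
  refine Eq.trans ?_ (h1.trans ?_)
  · unfold DA.Yin
    apply Finset.prod_congr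
    · ext e
      simp only [Finset.mem_filter]
      exact Iff.rfl
    · intro e _
      exact w_eq Q h e
  rw [mul_comm]
  congr 1
  · refine Finset.prod_nbij' (fun p => (p.1, p.2.2)) (fun q => (q.1, v, q.2)) ?_ ?_ ?_ ?_ ?_
    · rintro ⟨a, b, o⟩ hp
      simp [mem_Wt] at hp ⊢
      obtain ⟨⟨h3, h4⟩, h5, h6, h7⟩ := hp
      subst h6
      exact ⟨⟨h3.symm, h4⟩, h5⟩
    · rintro ⟨a, o⟩ hq
      simp [mem_Wt] at hq ⊢
      exact ⟨⟨hq.1.1.symm, hq.1.2⟩, hq.2⟩
    · rintro ⟨a, b, o⟩ hp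
      simp [mem_Wt] at hp ⊢
      exact hp.2.2.1.symm
    · rintro ⟨a, o⟩ _
      rfl
    · rintro ⟨a, b, o⟩ hp
      simp [mem_Wt] at hp
      obtain ⟨⟨h3, h4⟩, h5, h6, h7⟩ := hp
      subst h6
      simp [ff, xo]
  · refine Finset.prod_nbij' (fun p => (p.1, p.2.1)) (fun q => (q.1, q.2, some v)) ?_ ?_ ?_ ?_ ?_
    · rintro ⟨a, b, o⟩ hp
      simp [mem_Wt] at hp ⊢
      obtain ⟨⟨h3, h4⟩, h5, h6, h7⟩ := hp
      subst h6
      refine ⟨⟨?_, h3⟩, h7⟩
      rw [← h4]; rfl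
    · rintro ⟨a, b⟩ hq
      simp [mem_Wt, QD.vo] at hq ⊢
      exact ⟨⟨hq.1.2, hq.1.1.symm⟩, fun e => hq.2 e.symm, hq.2⟩
    · rintro ⟨a, b, o⟩ hp
      simp [mem_Wt] at hp ⊢
      exact hp.2.2.1.symm
    · rintro ⟨a, o⟩ _
      rfl
    · rintro ⟨a, b, o⟩ hp
      simp [mem_Wt] at hp
      obtain ⟨⟨h3, h4⟩, h5, h6, h7⟩ := hp
      subst h6
      simp [ff, xo]

/-- the out-edges of an additional box `y` -/
noncomputable def PP (i : I) : Polynomial (SS B k) :=
  (∏ q ∈ Finset.univ.filter (fun q : E × Option B => Q.src q.1 = i ∧ Q.vo q.2 = Q.tgt q.1),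
    (Polynomial.X - Polynomial.C (xo k q.2) + Polynomial.C (C (h - Q.t q.1)))) *
  ∏ q ∈ Finset.univ.filter (fun q : E × B => Q.tgt q.1 = some i ∧ Q.vx q.2 = Q.src q.1),
    (Polynomial.X - Polynomial.C (X q.2) + Polynomial.C (C (h + Q.t q.1)))

/-- constant of the loops -/
noncomputable def kp (i : I) : k :=
  ∏ a ∈ Finset.univ.filter (fun a => Q.src a = i ∧ Q.tgt a = some i), ((h - Q.t a) * (h + Q.t a))

omit [Field k] in
theorem split1 {M : Type*} [CommMonoid M] (v : B) (f : E × Option B → M) :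
    ∏ q ∈ Finset.univ.filter (fun q : E × Option B =>
      Q.src q.1 = Q.vx v ∧ Q.vo q.2 = Q.tgt q.1), f q =
    (∏ q ∈ Finset.univ.filter (fun q : E × Option B =>
      (Q.src q.1 = Q.vx v ∧ Q.vo q.2 = Q.tgt q.1) ∧ q.2 ≠ some v), f q) *
    ∏ a ∈ Finset.univ.filter (fun a => Q.src a = Q.vx v ∧ Q.tgt a = some (Q.vx v)),
      f (a, some v) := by
  rw [← Finset.prod_filter_mul_prod_filter_not _ (fun q : E × Option B => q.2 ≠ some v),
    Finset.filter_filter, Finset.filter_filter]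
  congr 1
  refine Finset.prod_nbij' (fun p => p.1) (fun a => (a, some v)) ?_ ?_ ?_ ?_ ?_
  · rintro ⟨a, o⟩ hp
    simp [QD.vo] at hp ⊢
    obtain ⟨⟨h3, h4⟩, h5⟩ := hp
    subst h5
    exact ⟨h3, h4.symm⟩
  · rintro a hq
    simp [QD.vo] at hq ⊢
    exact ⟨hq.1, hq.2.symm⟩
  · rintro ⟨a, o⟩ hp
    simp at hp ⊢
    exact hp.2.symm
  · rintro a _
    rfl
  · rintro ⟨a, o⟩ hp
    simp at hp
    rw [hp.2]

omit [Field k] in
theorem split2 {M : Type*} [CommMonoid M] (v : B) (f : E × B → M) :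
    ∏ q ∈ Finset.univ.filter (fun q : E × B =>
      Q.tgt q.1 = some (Q.vx v) ∧ Q.vx q.2 = Q.src q.1), f q =
    (∏ q ∈ Finset.univ.filter (fun q : E × B =>
      (Q.tgt q.1 = some (Q.vx v) ∧ Q.vx q.2 = Q.src q.1) ∧ q.2 ≠ v), f q) *
    ∏ a ∈ Finset.univ.filter (fun a => Q.src a = Q.vx v ∧ Q.tgt a = some (Q.vx v)),
      f (a, v) := by
  rw [← Finset.prod_filter_mul_prod_filter_not _ (fun q : E × B => q.2 ≠ v),
    Finset.filter_filter, Finset.filter_filter]
  congr 1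
  refine Finset.prod_nbij' (fun p => p.1) (fun a => (a, v)) ?_ ?_ ?_ ?_ ?_
  · rintro ⟨a, o⟩ hp
    simp at hp ⊢
    obtain ⟨⟨h3, h4⟩, h5⟩ := hp
    subst h5
    exact ⟨h4.symm, h3⟩
  · rintro a hq
    simp at hq ⊢
    exact ⟨hq.2, hq.1.symm⟩
  · rintro ⟨a, o⟩ hp
    simp at hp ⊢
    exact hp.2.symm
  · rintro a _
    rfl
  · rintro ⟨a, o⟩ hp
    simp at hp
    rw [hp.2]

theorem eval_PP_self (v : B) :
    (PP Q h (Q.vx v)).eval (X v) = C (kp Q h (Q.vx v)) * (Q.dir h).Y {v} := by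
  unfold PP
  rw [Polynomial.eval_mul, Polynomial.eval_prod, Polynomial.eval_prod, split1, split2, Y_eq]
  simp only [Polynomial.eval_add, Polynomial.eval_sub, Polynomial.eval_X, Polynomial.eval_C]
  have : (C (kp Q h (Q.vx v)) : SS B k) =
      (∏ a ∈ Finset.univ.filter (fun a => Q.src a = Q.vx v ∧ Q.tgt a = some (Q.vx v)),
        (X v - xo k (some v) + C (h - Q.t a))) *
      ∏ a ∈ Finset.univ.filter (fun a => Q.src a = Q.vx v ∧ Q.tgt a = some (Q.vx v)),
        (X v - X v + C (h + Q.t a)) := by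
    unfold kp
    rw [map_prod, ← Finset.prod_mul_distrib]
    apply Finset.prod_congr rfl
    intro a _
    simp [xo]
  rw [this]
  ring

/-- number of factors of `PP` -/
noncomputable def np (i : I) : ℕ :=
  (Finset.univ.filter (fun q : E × Option B => Q.src q.1 = i ∧ Q.vo q.2 = Q.tgt q.1)).card +
  (Finset.univ.filter (fun q : E × B => Q.tgt q.1 = some i ∧ Q.vx q.2 = Q.src q.1)).card

theorem prod_neg' {M ι : Type*} [CommRing M] (s : Finset ι) (f : ι → M) :
    ∏ i ∈ s, (- f i) = (-1) ^ s.card * ∏ i ∈ s, f i := by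
  have : ∀ i ∈ s, - f i = (-1) * f i := fun i _ => by ring
  rw [Finset.prod_congr rfl this, Finset.prod_mul_distrib, Finset.prod_const]

theorem eval_PP_shift (v : B) :
    (PP Q h (Q.vx v)).eval (X v - C (2 * h)) =
      (-1) ^ np Q (Q.vx v) * C (kp Q h (Q.vx v)) * (Q.dir h).Yin v := by
  unfold PP
  rw [Polynomial.eval_mul, Polynomial.eval_prod, Polynomial.eval_prod, Yin_eq]
  simp only [Polynomial.eval_add, Polynomial.eval_sub, Polynomial.eval_X, Polynomial.eval_C]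
  have h1 : ∀ q : E × Option B, (X v - C (2 * h) - xo k q.2 + C (h - Q.t q.1) : SS B k) =
      - (xo k q.2 - X v + C (h + Q.t q.1)) := by
    intro q
    simp only [map_sub, map_add, map_mul, map_ofNat]
    ring
  have h2 : ∀ q : E × B, (X v - C (2 * h) - X q.2 + C (h + Q.t q.1) : SS B k) =
      - (X q.2 - X v + C (h - Q.t q.1)) := by
    intro q
    simp only [map_sub, map_add, map_mul, map_ofNat]
    ring
  simp only [h1, h2]
  rw [prod_neg', prod_neg', split1, split2]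
  have : (C (kp Q h (Q.vx v)) : SS B k) =
      (∏ a ∈ Finset.univ.filter (fun a => Q.src a = Q.vx v ∧ Q.tgt a = some (Q.vx v)),
        (xo k (some v) - X v + C (h + Q.t a))) *
      ∏ a ∈ Finset.univ.filter (fun a => Q.src a = Q.vx v ∧ Q.tgt a = some (Q.vx v)),
        (X v - X v + C (h - Q.t a)) := by
    unfold kp
    rw [map_prod, ← Finset.prod_mul_distrib]
    apply Finset.prod_congr rfl
    intro a _
    simp [xo]
    ring
  rw [this]
  unfold np
  rw [pow_add]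
  ring

omit [Field k] [Fintype E] in
theorem tprod {M : Type*} [CommMonoid M] (v : B) (i : I) (F : B → M) :
    ∏ u ∈ Finset.univ.filter (fun u => u ≠ v ∧ Q.vx u = i), F u =
      ∏ u : {u // Q.vx u = i}, if u.1 = v then 1 else F u.1 := by
  rw [← Finset.prod_subtype (p := fun u => Q.vx u = i)
    (Finset.univ.filter (fun u => Q.vx u = i)) (f := fun u => if u = v then 1 else F u)]
  · rw [Finset.prod_ite]
    simp only [Finset.prod_const_one, one_mul]
    rw [Finset.filter_filter]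
    apply Finset.prod_congr _ fun _ _ => rfl
    ext u
    simp [and_comm]
  · intro u; simp

/-- the pairs starting at `v` -/
noncomputable def Ev (v : B) : SS B k :=
  ∏ u ∈ Finset.univ.filter (fun u => u ≠ v ∧ Q.vx u = Q.vx v),
    ((X v - X u) * (C (2 * h) - X v + X u))

/-- the pairs without `v` -/
noncomputable def Er (v : B) : SS B k := rename (Subtype.val : Del v → B) ((Q.del v).EB h)

theorem mem_Prs {I E B Λ : Type*} [DecidableEq I] [Fintype B] (Q : QD I E B Λ) (p : B × B) :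
    p ∈ Q.Prs ↔ Q.vx p.1 = Q.vx p.2 := by
  unfold QD.Prs
  rw [Finset.mem_filter]
  simp

omit [Fintype E] in
theorem Er_eq (v : B) : Er Q h v =
    ∏ p ∈ Q.Prs.filter (fun p => p.1 ≠ p.2 ∧ p.1 ≠ v ∧ p.2 ≠ v),
      ((X p.1 - X p.2) * (C (2 * h) - X p.1 + X p.2)) := by
  unfold Er QD.EB
  rw [map_prod]
  simp only [map_mul, map_sub, map_add, rename_X, rename_C]
  refine Finset.prod_bij' (fun p _ => (p.1.1, p.2.1))
    (fun p hp => (⟨p.1, (Finset.mem_filter.1 hp).2.2.1⟩, ⟨p.2, (Finset.mem_filter.1 hp).2.2.2⟩))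
    ?_ ?_ ?_ ?_ ?_
  · rintro ⟨⟨a, ha⟩, ⟨b, hb⟩⟩ hp
    simp [mem_Prs, QD.del] at hp ⊢
    exact ⟨hp.1, hp.2, ha, hb⟩
  · rintro ⟨a, b⟩ hp
    simp [mem_Prs, QD.del] at hp ⊢
    exact ⟨hp.1, hp.2.1⟩
  · rintro ⟨⟨a, ha⟩, ⟨b, hb⟩⟩ hp
    rfl
  · rintro ⟨a, b⟩ hp
    rfl
  · rintro ⟨⟨a, ha⟩, ⟨b, hb⟩⟩ hp
    rfl

omit [Fintype E] in
theorem EB_split (v : B) : Q.EB h = Er Q h v * (Ev Q h v * Q.Ec h v) := by
  rw [Er_eq]
  unfold QD.EB
  rw [← Finset.prod_filter_mul_prod_filter_not (Q.Prs.filter fun p => p.1 ≠ p.2)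
    (fun p => p.1 ≠ v ∧ p.2 ≠ v), Finset.filter_filter]
  congr 1
  rw [← Finset.prod_filter_mul_prod_filter_not _ (fun p : B × B => p.1 = v),
    Finset.filter_filter, Finset.filter_filter, Finset.filter_filter, Finset.filter_filter]
  congr 1
  · unfold Ev
    refine Finset.prod_nbij' (fun p => p.2) (fun u => (v, u)) ?_ ?_ ?_ ?_ ?_
    · rintro ⟨a, b⟩ hp
      simp [QD.Prs] at hp ⊢
      obtain ⟨h1, h2, h3, h4⟩ := hp
      subst h4
      exact ⟨fun e => h2 e.symm, h1.symm⟩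
    · rintro u hp
      simp [QD.Prs] at hp ⊢
      exact ⟨hp.2.symm, fun e => hp.1 e.symm⟩
    · rintro ⟨a, b⟩ hp
      simp [QD.Prs] at hp ⊢
      exact hp.2.2.2.symm
    · rintro u _
      rfl
    · rintro ⟨a, b⟩ hp
      simp [QD.Prs] at hp
      rw [hp.2.2.2]
  · unfold QD.Ec
    refine Finset.prod_nbij' (fun p => p.1) (fun u => (u, v)) ?_ ?_ ?_ ?_ ?_
    · rintro ⟨a, b⟩ hp
      simp [QD.Prs] at hp ⊢
      obtain ⟨h1, h2, h3, h4⟩ := hp
      have h5 := h3 h4
      subst h5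
      exact ⟨h4, h1⟩
    · rintro u hp
      simp [QD.Prs] at hp ⊢
      exact ⟨hp.2, hp.1⟩
    · rintro ⟨a, b⟩ hp
      simp [QD.Prs] at hp ⊢
      exact (hp.2.2.1 hp.2.2.2).symm
    · rintro u _
      rfl
    · rintro ⟨a, b⟩ hp
      simp [QD.Prs] at hp
      rw [hp.2.2.1 hp.2.2.2]
      ring

/-- nodes -/
noncomputable def cc (b : B) (l : Bool × {u // Q.vx u = Q.vx b}) : SS B k :=
  if l.1 then X l.2.1 - C (2 * h) else X l.2.1

omit [Fintype E] [DecidableEq I] [Fintype B] [DecidableEq B] in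
theorem cc_inj [CharZero k] (hh : h ≠ 0) (b : B) : Function.Injective (cc Q h b) := by
  have h2 : (2 * h : k) ≠ 0 := mul_ne_zero two_ne_zero hh
  rintro ⟨c, u⟩ ⟨c', u'⟩ e
  have e0 := congrArg (eval (0 : B → k)) e
  have hc : c = c' := by
    cases c <;> cases c' <;> simp [cc] at e0 ⊢
    · exact hh e0
    · exact hh e0
  subst hc
  have : (X u.1 : SS B k) = X u'.1 := by
    cases c
    · simpa [cc] using e
    · simpa [cc] using e
  have h3 := X_injective this
  rw [Subtype.ext h3]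

theorem erase_prod {M ι : Type*} [CommMonoid M] [Fintype ι] [DecidableEq ι] (l : ι) (f : ι → M) :
    ∏ j ∈ Finset.univ.erase l, f j = ∏ j, if j = l then 1 else f j := by
  rw [Finset.prod_ite]
  simp only [Finset.prod_const_one, one_mul]
  apply Finset.prod_congr _ fun _ _ => rfl
  ext j
  simp

/-- cofactors -/
noncomputable def aa (b : B) (l : Bool × {u // Q.vx u = Q.vx b}) : SS B k :=
  if l.1 then (-1) ^ Fintype.card {u // Q.vx u = Q.vx b} * Er Q h l.2.1 * Q.Ec h l.2.1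
  else Er Q h l.2.1 * ∏ u ∈ Finset.univ.filter (fun u => u ≠ l.2.1 ∧ Q.vx u = Q.vx l.2.1),
    ((C (2 * h) - X l.2.1 + X u) * (X u - X l.2.1))

theorem pull {M ι : Type*} [CommMonoid M] [Fintype ι] [DecidableEq ι] (l : ι) (f : ι → M) :
    ∏ j, f j = f l * ∏ j, if j = l then 1 else f j := by
  rw [← Finset.mul_prod_erase Finset.univ f (Finset.mem_univ l), erase_prod]

theorem key1 {M T : Type*} [CommRing M] [Fintype T] (p : T → Prop) [DecidablePred p]
    (f : T → M) (v c : M) :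
    (∏ u, if p u then 1 else (c - v + f u) * (f u - v)) *
      (∏ u, if p u then 1 else v - f u + c) * (∏ u, if p u then 1 else v - f u) =
    (∏ u, if p u then 1 else (v - f u) * (c - v + f u)) *
      ∏ u, if p u then 1 else (f u - v) * (c + v - f u) := by
  rw [← Finset.prod_mul_distrib, ← Finset.prod_mul_distrib, ← Finset.prod_mul_distrib]
  apply Finset.prod_congr rfl
  intro u _
  split_ifs
  · simp
  · ring

theorem key2 {M T : Type*} [CommRing M] [Fintype T] (p : T → Prop) [DecidablePred p]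
    (f : T → M) (v c : M) :
    (∏ u, if p u then 1 else c - v + f u) * (∏ u, if p u then 1 else v - f u) =
    (∏ u, if p u then 1 else (v - f u) * (c - v + f u)) := by
  rw [← Finset.prod_mul_distrib]
  apply Finset.prod_congr rfl
  intro u _
  split_ifs
  · simp
  · ring

omit [Fintype E] in
theorem aa_mul_false (b : B) (v : {u // Q.vx u = Q.vx b}) :
    aa Q h b (false, v) * ∏ j ∈ Finset.univ.erase (false, v), (cc Q h b (false, v) - cc Q h b j) =
      C (2 * h) * Q.EB h := by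
  obtain ⟨v, hv⟩ := v
  rw [EB_split Q h v]
  unfold Ev QD.Ec aa
  rw [erase_prod, Fintype.prod_prod_type, Fintype.prod_bool]
  have h1 : ∀ u : {u // Q.vx u = Q.vx b}, (if ((true, u) : Bool × {u // Q.vx u = Q.vx b}) =
      (false, ⟨v, hv⟩) then (1 : SS B k) else
        cc Q h b (false, ⟨v, hv⟩) - cc Q h b (true, u)) = X v - X u.1 + C (2 * h) := by
    intro u
    rw [if_neg (by simp)]
    simp [cc]
    ring
  have h2 : ∀ u : {u // Q.vx u = Q.vx b}, (if ((false, u) : Bool × {u // Q.vx u = Q.vx b}) =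
      (false, ⟨v, hv⟩) then (1 : SS B k) else
        cc Q h b (false, ⟨v, hv⟩) - cc Q h b (false, u)) =
      if u.1 = v then 1 else X v - X u.1 := by
    intro u
    by_cases hu : u.1 = v
    · rw [if_pos (by rw [Prod.mk.injEq]; exact ⟨rfl, Subtype.ext hu⟩), if_pos hu]
    · rw [if_neg (by rw [Prod.mk.injEq]; rintro ⟨_, e⟩; exact hu (congrArg Subtype.val e)),
        if_neg hu]
      simp [cc]
  have h3 : (Finset.univ.filter fun u => u ≠ v ∧ Q.vx u = Q.vx v) =
      (Finset.univ.filter fun u => u ≠ v ∧ Q.vx u = Q.vx b) := by rw [hv]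
  have h4 : ∀ u : {u // Q.vx u = Q.vx b}, (u = ⟨v, hv⟩) ↔ u.1 = v := fun u => Subtype.ext_iff
  rw [Finset.prod_congr rfl fun u _ => h1 u, Finset.prod_congr rfl fun u _ => h2 u,
    pull (⟨v, hv⟩ : {u // Q.vx u = Q.vx b}) (fun u => X v - X u.1 + C (2 * h))]
  simp only [Bool.false_eq_true, if_false, h4, sub_self, zero_add]
  rw [h3, tprod, tprod, tprod]
  have h5 := key1 (fun u : {u // Q.vx u = Q.vx b} => u.1 = v) (fun u => (X u.1 : SS B k)) (X v)
    (C (2 * h))
  linear_combination (Er Q h v * C (2 * h)) * h5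

omit [Fintype E] in
theorem aa_mul_true (b : B) (v : {u // Q.vx u = Q.vx b}) :
    aa Q h b (true, v) * ∏ j ∈ Finset.univ.erase (true, v), (cc Q h b (true, v) - cc Q h b j) =
      C (2 * h) * Q.EB h := by
  obtain ⟨v, hv⟩ := v
  rw [EB_split Q h v]
  unfold Ev aa
  rw [erase_prod, Fintype.prod_prod_type, Fintype.prod_bool]
  have h1 : ∀ u : {u // Q.vx u = Q.vx b}, (if ((false, u) : Bool × {u // Q.vx u = Q.vx b}) =
      (true, ⟨v, hv⟩) then (1 : SS B k) else
        cc Q h b (true, ⟨v, hv⟩) - cc Q h b (false, u)) = - (C (2 * h) - X v + X u.1) := by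
    intro u
    rw [if_neg (by simp)]
    simp [cc]
    ring
  have h2 : ∀ u : {u // Q.vx u = Q.vx b}, (if ((true, u) : Bool × {u // Q.vx u = Q.vx b}) =
      (true, ⟨v, hv⟩) then (1 : SS B k) else
        cc Q h b (true, ⟨v, hv⟩) - cc Q h b (true, u)) =
      if u.1 = v then 1 else X v - X u.1 := by
    intro u
    by_cases hu : u.1 = v
    · rw [if_pos (by rw [Prod.mk.injEq]; exact ⟨rfl, Subtype.ext hu⟩), if_pos hu]
    · rw [if_neg (by rw [Prod.mk.injEq]; rintro ⟨_, e⟩; exact hu (congrArg Subtype.val e)),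
        if_neg hu]
      simp [cc]
  have h3 : (Finset.univ.filter fun u => u ≠ v ∧ Q.vx u = Q.vx v) =
      (Finset.univ.filter fun u => u ≠ v ∧ Q.vx u = Q.vx b) := by rw [hv]
  have h4 : ∀ u : {u // Q.vx u = Q.vx b}, (u = ⟨v, hv⟩) ↔ u.1 = v := fun u => Subtype.ext_iff
  rw [Finset.prod_congr rfl fun u _ => h1 u, Finset.prod_congr rfl fun u _ => h2 u, prod_neg',
    pull (⟨v, hv⟩ : {u // Q.vx u = Q.vx b}) (fun u => C (2 * h) - X v + X u.1)]
  simp only [if_true, h4, sub_add_cancel]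
  rw [h3, tprod, Finset.card_univ]
  have h5 := key2 (fun u : {u // Q.vx u = Q.vx b} => u.1 = v) (fun u => (X u.1 : SS B k)) (X v)
    (C (2 * h))
  have h6 : ((-1 : SS B k) ^ Fintype.card {u // Q.vx u = Q.vx b}) *
      (-1) ^ Fintype.card {u // Q.vx u = Q.vx b} = 1 := by
    rw [← mul_pow]; simp
  rw [← h5]
  generalize (∏ u : {u // Q.vx u = Q.vx b}, (if u.1 = v then (1 : SS B k) else
    C (2 * h) - X v + X u.1)) = a1
  generalize (∏ u : {u // Q.vx u = Q.vx b}, (if u.1 = v then (1 : SS B k) else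
    X v - X u.1)) = a2
  linear_combination (Er Q h v * Q.Ec h v * C (2 * h) * a1 * a2) * h6

omit [Fintype B] [DecidableEq B] in
theorem kp_ne (i : I)
    (hloop : ∀ a, Q.tgt a = some (Q.src a) → h + Q.t a ≠ 0 ∧ h - Q.t a ≠ 0) : kp Q h i ≠ 0 := by
  unfold kp
  rw [Finset.prod_ne_zero_iff]
  intro a ha
  obtain ⟨h1, h2⟩ := (Finset.mem_filter.1 ha).2
  have h3 := hloop a (by rw [h2, h1])
  exact mul_ne_zero h3.2 h3.1

end

end H6a

section

variable {I E B : Type*} [Fintype E] [DecidableEq I] [Fintype B] [DecidableEq B]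

/-- no invariance is needed -/
theorem A1' {k : Type*} [Field k] [CharZero k] (Q : QD I E B k) (h : k) (hh : h ≠ 0)
    (hloop : ∀ a, Q.tgt a = some (Q.src a) → h + Q.t a ≠ 0 ∧ h - Q.t a ≠ 0)
    {F : SS B k} (hI : Q.EB h * F ∈ (Q.dir h).I) (b : B) (S : Polynomial (SS B k)) :
    F * ∑ u ∈ Finset.univ.filter (fun u => Q.vx u = Q.vx b),
      S.eval (X u - C (2 * h)) * (Q.dir h).Yin u * Q.Ec h u *
        rename (Subtype.val : Del u → B) ((Q.del u).EB h) ∈ (Q.dir h).I := by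
  have hk := H6a.kp_ne Q h (Q.vx b) hloop
  set κ := H6a.kp Q h (Q.vx b) with hκ
  set G : B → SS B k := fun u => S.eval (X u - C (2 * h)) * (Q.dir h).Yin u * Q.Ec h u *
        H6a.Er Q h u with hG
  obtain ⟨r, hr⟩ := H6a.lag (H6a.cc Q h b) (H6a.cc_inj Q h hh b) (S * H6a.PP Q h (Q.vx b))
    (H6a.aa Q h b) (C (2 * h) * Q.EB h) (by
      rintro ⟨c, u⟩
      cases c
      · exact H6a.aa_mul_false Q h b u
      · exact H6a.aa_mul_true Q h b u)
  rw [Fintype.sum_prod_type, Fintype.sum_bool] at hr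
  have h1 : ∀ u : {u // Q.vx u = Q.vx b},
      (S * H6a.PP Q h (Q.vx b)).eval (H6a.cc Q h b (true, u)) * H6a.aa Q h b (true, u) =
      ((-1) ^ H6a.np Q (Q.vx b) * (-1) ^ Fintype.card {u // Q.vx u = Q.vx b}) *
        C κ * G u.1 := by
    intro u
    have h2 := H6a.eval_PP_shift Q h u.1
    rw [u.2] at h2
    rw [Polynomial.eval_mul]
    have h3 : H6a.cc Q h b (true, u) = X u.1 - C (2 * h) := by simp [H6a.cc]
    have h4 : H6a.aa Q h b (true, u) = (-1) ^ Fintype.card {u // Q.vx u = Q.vx b} *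
      H6a.Er Q h u.1 * Q.Ec h u.1 := by simp [H6a.aa]
    rw [h3, h2, h4]
    ring
  have h5 : ∀ u : {u // Q.vx u = Q.vx b},
      (S * H6a.PP Q h (Q.vx b)).eval (H6a.cc Q h b (false, u)) * H6a.aa Q h b (false, u) ∈
        (Q.dir h).I := by
    intro u
    have h2 := H6a.eval_PP_self Q h u.1
    rw [u.2] at h2
    rw [Polynomial.eval_mul]
    have h3 : H6a.cc Q h b (false, u) = X u.1 := by simp [H6a.cc]
    rw [h3, h2]
    refine Ideal.mul_mem_right _ _ (Ideal.mul_mem_left _ _ (Ideal.mul_mem_left _ _ ?_))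
    exact Ideal.subset_span ⟨{u.1}, Finset.singleton_nonempty _, rfl⟩
  rw [Finset.sum_congr rfl fun u _ => h1 u, ← Finset.mul_sum] at hr
  have h6 : ∑ u ∈ Finset.univ.filter (fun u => Q.vx u = Q.vx b), G u =
      ∑ u : {u // Q.vx u = Q.vx b}, G u.1 := by
    rw [← Finset.sum_subtype (p := fun u => Q.vx u = Q.vx b)
      (Finset.univ.filter (fun u => Q.vx u = Q.vx b)) (f := G)]
    intro u; simp
  change F * ∑ u ∈ Finset.univ.filter (fun u => Q.vx u = Q.vx b), G u ∈ _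
  rw [h6]
  set Z := ∑ u : {u // Q.vx u = Q.vx b}, G u.1 with hZ
  have h7 : ((-1) ^ H6a.np Q (Q.vx b) * (-1) ^ Fintype.card {u // Q.vx u = Q.vx b}) *
        C κ * Z * F ∈ (Q.dir h).I := by
    have h8 : ((-1) ^ H6a.np Q (Q.vx b) * (-1) ^ Fintype.card {u // Q.vx u = Q.vx b}) *
        C κ * Z * F = C (2 * h) * r * (Q.EB h * F) - F *
          ∑ u : {u // Q.vx u = Q.vx b}, (S * H6a.PP Q h (Q.vx b)).eval
            (H6a.cc Q h b (false, u)) * H6a.aa Q h b (false, u) := by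
      linear_combination F * hr
    rw [h8]
    refine Ideal.sub_mem _ (Ideal.mul_mem_left _ _ hI) (Ideal.mul_mem_left _ _ ?_)
    exact Ideal.sum_mem _ fun u _ => h5 u
  have h9 : ((-1 : SS B k) ^ H6a.np Q (Q.vx b) * (-1) ^ Fintype.card {u // Q.vx u = Q.vx b}) *
      ((-1) ^ H6a.np Q (Q.vx b) * (-1) ^ Fintype.card {u // Q.vx u = Q.vx b}) = 1 := by
    rw [← pow_add, ← mul_pow]
    simp
  have h10 : (C κ⁻¹ : SS B k) * C κ = 1 := by
    rw [← map_mul, inv_mul_cancel₀ hk, map_one]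
  have h11 : F * Z = (C κ⁻¹ * ((-1) ^ H6a.np Q (Q.vx b) *
      (-1) ^ Fintype.card {u // Q.vx u = Q.vx b})) * (((-1) ^ H6a.np Q (Q.vx b) *
        (-1) ^ Fintype.card {u // Q.vx u = Q.vx b}) * C κ * Z * F) := by
    generalize ((-1 : SS B k) ^ H6a.np Q (Q.vx b) *
      (-1) ^ Fintype.card {u // Q.vx u = Q.vx b}) = s at h9 ⊢
    linear_combination (- Z * F) * h10 - (C κ⁻¹ * C κ * Z * F) * h9
  rw [h11]
  exact Ideal.mul_mem_left _ _ h7

theorem A1 {k : Type*} [Field k] [CharZero k] (Q : QD I E B k) (h : k) (hh : h ≠ 0)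
    (hloop : ∀ a, Q.tgt a = some (Q.src a) → h + Q.t a ≠ 0 ∧ h - Q.t a ≠ 0)
    {F : SS B k} (_ : F ∈ Q.R) (hI : Q.EB h * F ∈ (Q.dir h).I) (b : B)
    (S : Polynomial (SS B k)) (_ : ∀ n, S.coeff n ∈ Q.R) :
    F * ∑ u ∈ Finset.univ.filter (fun u => Q.vx u = Q.vx b),
      S.eval (X u - C (2 * h)) * (Q.dir h).Yin u * Q.Ec h u *
        rename (Subtype.val : Del u → B) ((Q.del u).EB h) ∈ (Q.dir h).I :=
  A1' Q h hh hloop hI b S

end

end Vale.Agent.P291.HX
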