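import Vale.Agent.P291.HX.HXCore
import Vale.Agent.P291.H134.Sym

/-!
# P291, block HX6b: invariants of the stabiliser of a box
-/

open MvPolynomial

namespace Vale.Agent.P291.HX

section

variable {I E B : Type*} [Fintype E] [DecidableEq I] [Fintype B] [DecidableEq B]

theorem exists_S {k : Type*} [Field k] [CharZero k] (Q : QD I E B k) (h : k) (b : B) (g : SS B k)
    (hg : ∀ σ ∈ Q.W, σ b = b → rename σ g = g) :
    ∃ S : Polynomial (SS B k), (∀ n, S.coeff n ∈ Q.R) ∧ S.eval (X b - C (2 * h)) = g := by
  classical
  let x : SS B k := X b - C (2 * h)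
  let N : Subalgebra k (SS B k) :=
    ((Polynomial.aeval (R := Q.R) x).range).restrictScalars k
  have hR : ∀ r ∈ Q.R, r ∈ N := fun r hr => ⟨Polynomial.C ⟨r, hr⟩, by simp⟩
  have hx : x ∈ N := ⟨Polynomial.X, by simp⟩
  have hb : (X b : SS B k) ∈ N := by
    have h1 : (X b : SS B k) = x + algebraMap k (SS B k) (2 * h) := by
      rw [MvPolynomial.algebraMap_eq]; simp only [x]; ring
    rw [h1]
    exact N.add_mem hx (N.algebraMap_mem _)
  let c : B → I × Bool := fun b' => (Q.vx b', decide (b' = b))
  have hc : g ∈ H134.Inv k c := by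
    intro σ hσ
    refine hg σ (fun b' => (Prod.ext_iff.1 (hσ b')).1) ?_
    have h1 := (Prod.ext_iff.1 (hσ b)).2
    simpa [c] using h1
  have hgN : g ∈ N := by
    have h1 := H134.mem_adjoin_pw hc
    refine (Algebra.adjoin_le ?_ : _ ≤ N) h1
    rintro _ ⟨b1, j, rfl⟩
    by_cases h2 : b1 = b
    · have h3 : (Finset.univ.filter fun b' => c b' = c b1) = {b} := by
        ext b'
        simp only [c, h2, Finset.mem_filter, Finset.mem_univ, true_and, Prod.mk.injEq,
          decide_eq_decide, Finset.mem_singleton]
        constructor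
        · rintro ⟨_, h4⟩; exact h4.2 trivial
        · rintro rfl; exact ⟨rfl, by simp⟩
      rw [h3]
      unfold H134.pw
      rw [Finset.sum_singleton]
      exact N.pow_mem hb _
    · have h3 : H134.pw (B := B) k (Finset.univ.filter fun b' => c b' = c b1) (j + 1) =
          H134.pw (B := B) k (Finset.univ.filter fun b' => Q.vx b' = Q.vx b1) (j + 1) -
            if Q.vx b = Q.vx b1 then X b ^ (j + 1) else 0 := by
        unfold H134.pw
        rw [eq_sub_iff_add_eq]
        have h4 : (if Q.vx b = Q.vx b1 then (X b : SS B k) ^ (j + 1) else 0) =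
            ∑ b' ∈ (Finset.univ.filter fun b' => Q.vx b' = Q.vx b1).filter (fun b' => b' = b),
              X b' ^ (j + 1) := by
          rw [Finset.filter_eq']
          by_cases h5 : Q.vx b = Q.vx b1
          · rw [if_pos h5, if_pos (by simp [h5]), Finset.sum_singleton]
          · rw [if_neg h5, if_neg (by simp [h5]), Finset.sum_empty]
        have h5 : (Finset.univ.filter fun b' => c b' = c b1) =
            (Finset.univ.filter fun b' => Q.vx b' = Q.vx b1).filter (fun b' => ¬ b' = b) := by
          ext b'
          simp [c, h2]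
        rw [h4, h5, add_comm, Finset.sum_filter_add_sum_filter_not]
      rw [h3]
      refine N.sub_mem (hR _ ?_) ?_
      · intro σ hσ
        refine H134.pw_mem_Inv (c := Q.vx) ?_ σ hσ
        intro b2 b3 h4 h5
        simpa [← h4] using h5
      · split_ifs
        · exact N.pow_mem hb _
        · exact N.zero_mem
  obtain ⟨S, hS⟩ := hgN
  refine ⟨S.map Q.R.val.toRingHom, fun n => ?_, ?_⟩
  · rw [Polynomial.coeff_map]
    exact (S.coeff n).2
  · rw [Polynomial.eval_map]
    exact hS

end

end Vale.Agent.P291.HX
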