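import Vale.Agent.P291.HX.HXCore
import Vale.Agent.P291.H276.Inter

/-!
# P291, block HX7: intersection lemma in the format of the quiver data
-/

open MvPolynomial

namespace Vale.Agent.P291.HX

open Vale.Agent.P291 Vale.Agent.P291.H882 Vale.Agent.P291.H276.Inter

noncomputable section

namespace HX7

open scoped Classical

variable {I E B : Type*} [Fintype E] [DecidableEq I] [Fintype B] [DecidableEq B]
variable {Λ : Type*} [CommRing Λ] [IsDomain Λ]

/-- the section `x_b ↦ x_b - x_none` -/
def io : SS B Λ →ₐ[Λ] MvPolynomial (Option B) Λ := aeval fun b => X (some b) - X none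

/-- the specialisation `x_none = 0` -/
def pr : MvPolynomial (Option B) Λ →ₐ[Λ] SS B Λ := aeval fun o => xo Λ o

omit [Fintype B] [DecidableEq B] [IsDomain Λ] in
theorem pr_io (g : SS B Λ) : pr (io g) = g := by
  have h : (pr.comp io : SS B Λ →ₐ[Λ] SS B Λ) = AlgHom.id _ _ := by
    apply MvPolynomial.algHom_ext
    intro b
    simp [pr, io, xo]
  exact DFunLike.congr_fun h g

/-- the edge of a weight -/
def ed (Q : QD I E B Λ) (p : E × B × Option B) : Edge Λ (Option B) :=
  (p.2.2, some p.2.1, Q.t p.1)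

theorem io_xi (Q : QD I E B Λ) (p : E × B × Option B) : io (Q.xi p) = form (ed Q p) := by
  obtain ⟨a, r, o⟩ := p
  unfold QD.xi form ed io
  cases o with
  | none => simp [xo, MvPolynomial.algebraMap_eq]
  | some s => simp [xo, MvPolynomial.algebraMap_eq]

/-- the multiset of edges -/
def LL (Q : QD I E B Λ) : Multiset (Edge Λ (Option B)) := Q.Wt.val.map (ed Q)

theorem Y_LL (Q : QD I E B Λ) (U : Set (Option B)) :
    Y (LL Q) U = ∏ p ∈ Q.Wt.filter (fun p => cuts U (ed Q p)), form (ed Q p) := by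
  unfold Y LL
  rw [Multiset.filter_map, Multiset.map_map]
  rfl

theorem io_cut (Q : QD I E B Λ) (U : Finset B) :
    io (Q.cut U) = Y (LL Q) ((U.map Function.Embedding.some : Finset (Option B)) : Set (Option B)) := by
  rw [Y_LL]
  unfold QD.cut
  rw [map_prod]
  refine Finset.prod_congr ?_ fun p _ => io_xi Q p
  apply Finset.filter_congr
  intro p _
  unfold cuts ed
  simp only [Finset.coe_map, Function.Embedding.some_apply, Set.mem_image, Finset.mem_coe,
    Option.some.injEq, exists_eq_right]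
  have h1 : (∃ x ∈ U, some x = p.2.2) ↔ ∃ b ∈ U, p.2.2 = some b := by
    constructor <;> rintro ⟨x, hx, h⟩ <;> exact ⟨x, hx, h.symm⟩
  rw [h1]
  exact not_congr iff_comm

theorem Y_rem_LL (Q : QD I E B Λ) (b : B) (U : Set (Option B)) :
    Y (rem (some b) (LL Q)) U =
      ∏ p ∈ (Q.Wt.filter (fun p => p.2.2 ≠ some b ∧ p.2.1 ≠ b)).filter
        (fun p => cuts U (ed Q p)), form (ed Q p) := by
  unfold Y rem LL
  rw [Multiset.filter_map, Multiset.filter_map, Multiset.map_map]
  rw [Finset.prod]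
  congr 1
  congr 1
  rw [Finset.filter_val, Finset.filter_val]
  congr 1
  refine @Multiset.filter_congr _ _ _ (_) (_) _ ?_
  intro p _
  simp [ed]

/-- subsets of `Del b` as subsets of `Option B` -/
def up {b : B} (U : Finset (Del b)) : Finset (Option B) :=
  (U.map (Function.Embedding.subtype _)).map Function.Embedding.some

omit [Fintype B] in
theorem some_mem_up {b : B} (U : Finset (Del b)) (r : Del b) :
    some r.1 ∈ (up U : Set (Option B)) ↔ r ∈ U :=
  (Finset.mem_map' Function.Embedding.some).trans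
    (Finset.mem_map' (Function.Embedding.subtype _))

omit [Fintype B] in
theorem map_mem_up {b : B} (U : Finset (Del b)) (o : Option (Del b)) :
    o.map Subtype.val ∈ (up U : Set (Option B)) ↔ ∃ c ∈ U, o = some c := by
  cases o with
  | none => simp [up]
  | some s =>
    rw [Option.map_some, some_mem_up]
    constructor
    · intro h; exact ⟨s, h, rfl⟩
    · rintro ⟨c, hc, h⟩
      rw [Option.some.injEq] at h
      rw [h]; exact hc

theorem io_cut_del (Q : QD I E B Λ) (b : B) (U : Finset (Del b)) :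
    io (rename (R := Λ) (Subtype.val : Del b → B) ((Q.del b).cut U)) =
      Y (rem (some b) (LL Q)) (up U : Set (Option B)) := by
  rw [Y_rem_LL]
  unfold QD.cut
  rw [map_prod, map_prod]
  refine Finset.prod_bij (fun p _ => (p.1, p.2.1.1, p.2.2.map Subtype.val)) ?_ ?_ ?_ ?_
  · rintro ⟨a, r, o⟩ hp
    rw [Finset.mem_filter] at hp
    rw [Finset.mem_filter, Finset.mem_filter]
    obtain ⟨hp1, hp2⟩ := hp
    unfold QD.Wt at hp1 ⊢
    rw [Finset.mem_filter] at hp1
    rw [Finset.mem_filter]
    refine ⟨⟨⟨Finset.mem_univ _, hp1.2.1, ?_⟩, ?_, r.2⟩, ?_⟩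
    · have h1 : (Q.del b).vo o = (Q.del b).tgt a := hp1.2.2
      show Q.vo (Option.map Subtype.val o) = Q.tgt a
      rw [show Q.tgt a = (Q.del b).tgt a from rfl, ← h1]
      cases o <;> rfl
    · cases o with
      | none => simp
      | some s => simpa using s.2
    · intro h
      apply hp2
      have h' : o.map Subtype.val ∈ (up U : Set (Option B)) ↔
        some r.1 ∈ (up U : Set (Option B)) := h
      rw [map_mem_up, some_mem_up] at h'
      exact h'.symm
  · rintro ⟨a, r, o⟩ _ ⟨a', r', o'⟩ _ h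
    simp only [Prod.mk.injEq] at h
    obtain ⟨rfl, h1, h2⟩ := h
    have h3 : r = r' := Subtype.ext h1
    have h4 : o = o' := Option.map_injective Subtype.val_injective h2
    rw [h3, h4]
  · rintro ⟨a, r, o⟩ hp
    rw [Finset.mem_filter, Finset.mem_filter] at hp
    obtain ⟨⟨hp1, ho, hr⟩, hp2⟩ := hp
    unfold QD.Wt at hp1
    rw [Finset.mem_filter] at hp1
    have hr' : r ≠ b := hr
    obtain ⟨o', rfl⟩ : ∃ o' : Option (Del b), o'.map Subtype.val = o := by
      cases o with
      | none => exact ⟨none, rfl⟩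
      | some s => exact ⟨some ⟨s, fun h => ho (congrArg some h)⟩, rfl⟩
    refine ⟨(a, ⟨r, hr'⟩, o'), ?_, rfl⟩
    rw [Finset.mem_filter]
    unfold QD.Wt
    rw [Finset.mem_filter]
    refine ⟨⟨Finset.mem_univ _, hp1.2.1, ?_⟩, ?_⟩
    · have h1 : Q.vo (o'.map Subtype.val) = Q.tgt a := hp1.2.2
      show (Q.del b).vo o' = Q.tgt a
      rw [← h1]
      cases o' <;> rfl
    · intro h
      apply hp2
      have h' : (⟨r, hr'⟩ : Del b) ∈ U ↔ ∃ c ∈ U, o' = some c := h
      show o'.map Subtype.val ∈ (up U : Set (Option B)) ↔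
        some (⟨r, hr'⟩ : Del b).1 ∈ (up U : Set (Option B))
      rw [map_mem_up, some_mem_up]
      exact h'.symm
  · rintro ⟨a, r, o⟩ _
    rw [← io_xi]
    congr 1
    unfold QD.xi
    cases o <;> simp [xo, QD.del]

end HX7

namespace HX7

open scoped Classical

variable {I E B : Type*} [Fintype E] [DecidableEq I] [Fintype B] [DecidableEq B]
variable {Λ : Type*} [CommRing Λ] [IsDomain Λ]

variable (B) in
/-- all boxes -/
def Bs : Finset (Option B) := Finset.univ.map Function.Embedding.some

omit [DecidableEq B] in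
theorem mem_Bs {o : Option B} : o ∈ Bs B ↔ ∃ b, some b = o := by
  simp [Bs]

theorem io_IT_del (Q : QD I E B Λ) (b : B) {y : SS B Λ}
    (hy : y ∈ (Q.del b).IT.map (rename (R := Λ) (Subtype.val : Del b → B))) :
    io y ∈ cI ((Bs B).erase (some b)) (rem (some b) (LL Q)) := by
  have h2 : Ideal.map (rename (R := Λ) (Subtype.val : Del b → B)) (Q.del b).IT ≤
      (cI ((Bs B).erase (some b)) (rem (some b) (LL Q))).comap (io (B := B) (Λ := Λ)) := by
    unfold QD.IT
    rw [Ideal.map_span, Ideal.span_le]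
    rintro z ⟨z', ⟨U, hU, rfl⟩, rfl⟩
    rw [SetLike.mem_coe, Ideal.mem_comap]
    have e := io_cut_del Q b U
    rw [e]
    refine Vale.Agent.P291.H276.Inter.Y_mem (U := up U) ?_ ?_
    · obtain ⟨c, hc⟩ := hU
      exact ⟨some c.1, (some_mem_up U c).2 hc⟩
    · intro o ho
      unfold up at ho
      rw [Finset.mem_map] at ho
      obtain ⟨c, hc, rfl⟩ := ho
      rw [Finset.mem_map] at hc
      obtain ⟨d, hd, rfl⟩ := hc
      rw [Finset.mem_erase]
      refine ⟨?_, mem_Bs.2 ⟨_, rfl⟩⟩
      intro h3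
      exact d.2 (Option.some_injective _ h3)
  exact h2 hy

theorem pr_cI (Q : QD I E B Λ) {y : MvPolynomial (Option B) Λ} (hy : y ∈ cI (Bs B) (LL Q)) :
    pr y ∈ Q.IT := by
  have h2 : cI (Bs B) (LL Q) ≤ Q.IT.comap (pr (B := B) (Λ := Λ)) := by
    unfold cI
    rw [Ideal.span_le]
    rintro z ⟨U, hU, hU', rfl⟩
    rw [SetLike.mem_coe, Ideal.mem_comap]
    let U0 : Finset B := Finset.univ.filter (fun b => some b ∈ U)
    have hU0 : U = U0.map Function.Embedding.some := by
      ext o
      rw [Finset.mem_map]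
      constructor
      · intro ho
        obtain ⟨b, rfl⟩ := mem_Bs.1 (hU' ho)
        exact ⟨b, by simpa [U0] using ho, rfl⟩
      · rintro ⟨b, hb, rfl⟩
        simpa [U0] using hb
    have hne : U0.Nonempty := by
      rw [hU0] at hU
      exact Finset.map_nonempty.1 hU
    rw [hU0, ← io_cut, pr_io]
    exact Ideal.subset_span ⟨U0, hne, rfl⟩
  exact h2 hy

theorem io_mem_LH (Q : QD I E B Λ) (b : B) {G : SS B Λ}
    (h : G ∈ Ideal.span {Q.cut {b}} ⊔
      (Q.del b).IT.map (rename (R := Λ) (Subtype.val : Del b → B))) :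
    io G ∈ Ideal.span {Y (LL Q) ({some b} : Set (Option B))} ⊔
      cI ((Bs B).erase (some b)) (rem (some b) (LL Q)) := by
  obtain ⟨x, hx, y, hy, hxy⟩ := Submodule.mem_sup.1 h
  rw [← hxy, map_add]
  refine Ideal.add_mem _ (Ideal.mem_sup_left ?_) (Ideal.mem_sup_right (io_IT_del Q b hy))
  obtain ⟨c, rfl⟩ := Ideal.mem_span_singleton'.1 hx
  rw [map_mul, io_cut]
  have : (((({b} : Finset B).map Function.Embedding.some : Finset (Option B))) :
      Set (Option B)) = {some b} := by
    simp
  rw [this]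
  exact Ideal.mul_mem_left _ _ (Ideal.mem_span_singleton_self _)

theorem star2' [Nonempty B] (Q : QD I E B Λ) (G : SS B Λ)
    (h : ∀ b, G ∈ Ideal.span {Q.cut {b}} ⊔
      (Q.del b).IT.map (rename (R := Λ) (Subtype.val : Del b → B))) : G ∈ Q.IT := by
  have h1 : io G ∈ cI (Bs B) (LL Q) := by
    refine inter ?_ (LL Q) ?_
    · obtain ⟨b⟩ := (inferInstance : Nonempty B)
      exact ⟨some b, mem_Bs.2 ⟨b, rfl⟩⟩
    · intro u hu
      obtain ⟨b, rfl⟩ := mem_Bs.1 hu
      have h5 := io_mem_LH Q b (h b)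
      have e : (fun a b => Classical.propDecidable (a = b) : DecidableEq (Option B)) =
        Option.instDecidableEq := Subsingleton.elim _ _
      rw [e]
      exact h5
  have h3 := pr_cI Q h1
  rw [pr_io] at h3
  exact h3

end HX7

/-- **Intersection lemma** -/
theorem star2 {I E B : Type*} [Fintype E] [DecidableEq I] [Fintype B] [DecidableEq B]
    {Λ : Type*} [CommRing Λ] [IsDomain Λ] [Nonempty B] (Q : QD I E B Λ) (G : SS B Λ)
    (h : ∀ b, G ∈ Ideal.span {Q.cut {b}} ⊔
      (Q.del b).IT.map (rename (R := Λ) (Subtype.val : Del b → B))) : G ∈ Q.IT :=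
  HX7.star2' Q G h

end

end Vale.Agent.P291.HX
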