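import Vale.Agent.P291.H809.HXSym
import Vale.Agent.P291.HX.HX6aBlk
import Vale.Agent.P291.HX.HX6bBlk
import Vale.Agent.P291.HX.HX7Blk
import Vale.Agent.P291.HX.HX5Blk

/-!
# P291, stage HPX: the induction step
-/

set_option linter.unusedSectionVars false

open MvPolynomial

namespace Vale.Agent.P291.HX.S3

open Vale.Agent.P291 Vale.Agent.P291.HX Vale.Agent.P291.HPX


variable {I E B : Type} [Fintype E] [DecidableEq I] [Fintype B] [DecidableEq B]

theorem rename_eval_S {k : Type} [Field k] (Q : QD I E B k) (S : Polynomial (SS B k))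
    (hS : ∀ n, S.coeff n ∈ Q.R) (σ : Equiv.Perm B) (hσ : σ ∈ Q.W) (b : B) (c : k) :
    rename σ (S.eval (X b - C c)) = S.eval (X (σ b) - C c) := by
  rw [Polynomial.eval_eq_sum, Polynomial.eval_eq_sum, Polynomial.sum, Polynomial.sum, map_sum]
  refine Finset.sum_congr rfl fun n _ => ?_
  rw [map_mul, hS n σ hσ, map_pow, map_sub, rename_X, rename_C]

theorem step {k : Type} [Field k] [CharZero k] (Q : QD I E B k) (h : k)
    (lam : k →+ ℚ) (h1 : lam h = 1) (h0 : ∀ a, lam (Q.t a) = 0)
    {F : SS B k} (hF : F ∈ Q.R) (hI : Q.EB h * F ∈ (Q.dir h).I) (b : B) (m : ℕ) :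
    (Q.del b).EB h * (Q.dir h).Res b (X b ^ m * (Q.Ec h b * F)) ∈ ((Q.del b).dir h).I := by
  classical
  obtain ⟨j, j', hj1, hj2, hj3, hj4, hj5⟩ := exists_j Q h lam h1 h0 b
  have hh : h ≠ 0 := by
    rintro rfl
    simp at h1
  have hloop : ∀ a, Q.tgt a = some (Q.src a) → h + Q.t a ≠ 0 ∧ h - Q.t a ≠ 0 := by
    intro a _
    constructor
    · intro h2
      have := congrArg lam h2
      rw [map_add, h1, h0, map_zero] at this
      norm_num at this
    · intro h2
      have := congrArg lam h2
      rw [map_sub, h1, h0, map_zero] at this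
      norm_num at this
  set H := (Q.del b).EB h * (Q.dir h).Res b (X b ^ m * (Q.Ec h b * F)) with hH
  have hHR : H ∈ (Q.del b).R := by
    refine Subalgebra.mul_mem _ ?_ (Res_mem_R Q h hF b m)
    intro σ hσ
    exact rename_EB (Q.del b) h σ hσ
  -- invariant `g`
  have hinv : ∀ g ∈ (Q.del b).R, j' (g * H) = 0 := by
    intro g hg
    set g1 : SS B k := rename (Subtype.val : Del b → B) g * X b ^ m with hg1
    set e1 : SS B k := rename (Subtype.val : Del b → B) ((Q.del b).EB h) with he1
    have e2 : g * H = (Q.dir h).Res b (F * (g1 * Q.Ec h b * e1)) := by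
      rw [hH, ← mul_assoc, ← Res_rename_mul, map_mul]
      congr 1
      rw [hg1, he1]
      ring
    rw [e2, ← hj3]
    obtain ⟨S, hS, hS1⟩ := exists_S Q h b g1 (by
      intro σ hσ hb
      -- `σ` is the extension of its restriction
      have hr : ∀ x, x ≠ b ↔ σ x ≠ b := fun x => by
        rw [not_iff_not]
        constructor
        · rintro rfl; exact hb
        · intro h2; exact σ.injective (h2.trans hb.symm)
      have h3 : Equiv.Perm.ofSubtype (σ.subtypePerm (p := fun x => x ≠ b)
          (fun x => (hr x).symm)) = σ :=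
        Equiv.Perm.ofSubtype_subtypePerm _ (fun x hx hxb => hx (by rw [hxb, hb]))
      have h4 : σ.subtypePerm (p := fun x => x ≠ b) (fun x => (hr x).symm) ∈ (Q.del b).W := by
        intro x
        exact hσ x.1
      rw [hg1, map_mul, map_pow, rename_X, hb]
      congr 1
      conv_lhs => rw [← h3]
      rw [← rename_ofSubtype, hg _ h4])
    have hA := A1 Q h hh hloop hF hI b S hS
    have hz := hj1 _ hA
    rw [Finset.mul_sum, map_sum] at hz
    have hterm : ∀ u ∈ Finset.univ.filter (fun u => Q.vx u = Q.vx b),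
        j (F * (S.eval (X u - C (2 * h)) * (Q.dir h).Yin u * Q.Ec h u *
          rename (Subtype.val : Del u → B) ((Q.del u).EB h))) =
        j (F * (g1 * Q.Ec h b * e1) * (Q.dir h).Yin b) := by
      intro u hu
      have hu' : Q.vx u = Q.vx b := (Finset.mem_filter.mp hu).2
      have hσ : Equiv.swap b u ∈ Q.W := by
        intro x
        by_cases hx : x = b
        · rw [hx, Equiv.swap_apply_left, hu']
        · by_cases hx2 : x = u
          · rw [hx2, Equiv.swap_apply_right, hu']
          · rw [Equiv.swap_apply_of_ne_of_ne hx hx2]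
      have e3 := hj2 (Equiv.swap b u) hσ (F * (g1 * Q.Ec h b * e1) * (Q.dir h).Yin b)
      have e4 : rename (Equiv.swap b u) (F * (g1 * Q.Ec h b * e1) * (Q.dir h).Yin b) =
          F * (S.eval (X u - C (2 * h)) * (Q.dir h).Yin u * Q.Ec h u *
            rename (Subtype.val : Del u → B) ((Q.del u).EB h)) := by
        rw [map_mul, map_mul, map_mul, map_mul, hF _ hσ, ← hS1, rename_eval_S Q S hS _ hσ,
          rename_Ec Q h _ hσ, rename_Yin Q h _ hσ, he1, rename_EB_del Q h _ hσ,
          Equiv.swap_apply_left]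
        ring
      rw [← e3, e4]
    rw [Finset.sum_congr rfl hterm, Finset.sum_const, nsmul_eq_mul] at hz
    rcases mul_eq_zero.mp hz with h2 | h2
    · exfalso
      have h3 : (Finset.univ.filter (fun u => Q.vx u = Q.vx b)).card ≠ 0 :=
        Finset.card_ne_zero.mpr ⟨b, by simp⟩
      exact h3 (by exact_mod_cast h2)
    · exact h2
  -- all `g`
  apply hj5
  intro g
  have hfin : (Finset.univ.filter (fun σ : Equiv.Perm (Del b) => σ ∈ (Q.del b).W)).card ≠ 0 :=
    Finset.card_ne_zero.mpr ⟨1, by simp⟩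
  set T := Finset.univ.filter (fun σ : Equiv.Perm (Del b) => σ ∈ (Q.del b).W) with hT
  have h2 : (T.card : k) * j' (g * H) = j' ((∑ σ ∈ T, rename σ g) * H) := by
    rw [Finset.sum_mul, map_sum]
    have : ∀ σ ∈ T, j' (rename σ g * H) = j' (g * H) := by
      intro σ hσ
      have hσ' : σ ∈ (Q.del b).W := (Finset.mem_filter.mp hσ).2
      conv_lhs => rw [← hHR σ hσ', ← map_mul]
      exact hj4 σ hσ' _
    rw [Finset.sum_congr rfl this, Finset.sum_const, nsmul_eq_mul]
  rw [hinv (∑ σ ∈ T, rename σ g) (by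
    intro τ hτ
    rw [map_sum]
    refine Finset.sum_equiv (Equiv.mulLeft τ) ?_ ?_
    · intro σ
      rw [hT, Finset.mem_filter, Finset.mem_filter]
      simp only [Finset.mem_univ, true_and, Equiv.coe_mulLeft]
      exact (Subgroup.mul_mem_cancel_left _ hτ).symm
    · intro σ _
      rw [rename_rename]
      rfl)] at h2
  rcases mul_eq_zero.mp h2 with h3 | h3
  · exact absurd (by exact_mod_cast h3) hfin
  · exact h3

end Vale.Agent.P291.HX.S3
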