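import Vale.Agent.P291.HX.HX6cBlk
import Vale.Agent.P291.H809.HXChg

/-!
# P291, stage HPX: the Hausel-Proudfoot ideal is contained in `J_D`
-/

set_option linter.unusedSectionVars false

open MvPolynomial

namespace Vale.Agent.P291.HX.S3

open Vale.Agent.P291 Vale.Agent.P291.HX Vale.Agent.P291.HPX


variable {I E B : Type} [Fintype E] [DecidableEq I] [Fintype B] [DecidableEq B]

/-- The main induction. -/
theorem main {Λ : Type} [CommRing Λ] [IsDomain Λ] {k : Type} [Field k] [CharZero k]
    (φ : Polynomial Λ →+* k) (hφ : Function.Injective φ) (lam : k →+ ℚ)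
    (h1 : lam (φ Polynomial.X) = 1) (h0 : ∀ x : Λ, lam (φ (Polynomial.C x)) = 0) (n : ℕ) :
    ∀ {B : Type} [Fintype B] [DecidableEq B] (Q : QD I E B Λ), Fintype.card B = n →
    ∀ F : MvPolynomial B (Polynomial Λ), (∀ σ ∈ Q.W, rename σ F = F) →
    ((Q.chg' (Polynomial.C : Λ →+* Polynomial Λ)).chg' φ).EB (φ Polynomial.X) *
      MvPolynomial.map φ F ∈
      (((Q.chg' (Polynomial.C : Λ →+* Polynomial Λ)).chg' φ).dir (φ Polynomial.X)).I →
    Q.D * MvPolynomial.map (Polynomial.evalRingHom 0) F ∈ Q.IT := by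
  induction n with
  | zero =>
    intro B _ _ Q hB F hF hI
    have : IsEmpty B := Fintype.card_eq_zero_iff.mp hB
    have h2 : (((Q.chg' (Polynomial.C : Λ →+* Polynomial Λ)).chg' φ).dir
        (φ Polynomial.X)).I = ⊥ := by
      rw [DA.I, Ideal.span_eq_bot]
      rintro g ⟨U, hU, -⟩
      obtain ⟨x, -⟩ := hU
      exact isEmptyElim x
    rw [h2, Ideal.mem_bot] at hI
    have h3 : ((Q.chg' (Polynomial.C : Λ →+* Polynomial Λ)).chg' φ).EB
        (φ Polynomial.X) = 1 := by
      rw [QD.EB]
      refine Finset.prod_eq_one fun p _ => isEmptyElim p.1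
    rw [h3, one_mul] at hI
    have h4 : F = 0 := MvPolynomial.map_injective φ hφ (by rw [hI, map_zero])
    rw [h4, map_zero, mul_zero]
    exact Ideal.zero_mem _
  | succ n ih =>
    intro B _ _ Q hB F hF hI
    have : Nonempty B := by
      rw [← Fintype.card_pos_iff, hB]
      omega
    refine star2 Q _ fun b => ?_
    rw [← Y_dir_zero]
    refine mem_of_Res (Q.dir 0) b _ _ fun m => ?_
    set QX := Q.chg' (Polynomial.C : Λ →+* Polynomial Λ) with hQX
    -- the residue over `Λ[h]`
    set F1 := (QX.dir Polynomial.X).Res b (X b ^ m * (QX.Ec Polynomial.X b * F)) with hF1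
    have hFX : F ∈ QX.R := fun σ hσ => hF σ hσ
    have hFk : MvPolynomial.map φ F ∈ (QX.chg' φ).R := R_chg QX φ hFX
    have e3 : MvPolynomial.map φ F1 =
        ((QX.chg' φ).dir (φ Polynomial.X)).Res b (X b ^ m * ((QX.chg' φ).Ec (φ Polynomial.X) b *
          MvPolynomial.map φ F)) := by
      rw [hF1, ← Res_chg, map_mul, map_mul, map_pow, map_X, Ec_chg]
    have e4 := step (QX.chg' φ) (φ Polynomial.X) lam h1 (fun a => h0 _) hFk hI b m
    rw [← e3] at e4
    have hcard : Fintype.card (Del b) = n := by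
      rw [Fintype.card_subtype_compl, hB]
      simp
    have e5 := ih (Q.del b) hcard F1 (Res_mem_R QX Polynomial.X hFX b m) e4
    -- specialise `h = 0`
    set ev : Polynomial Λ →+* Λ := Polynomial.evalRingHom 0 with hev
    have hevX : ev Polynomial.X = 0 := by simp [hev]
    have e6 : MvPolynomial.map ev F1 = (Q.dir 0).Res b (X b ^ m * (Q.Ec 0 b *
        MvPolynomial.map ev F)) := by
      have e7 : MvPolynomial.map ev F1 =
          ((QX.chg' ev).dir (ev Polynomial.X)).Res b (X b ^ m *
            ((QX.chg' ev).Ec (ev Polynomial.X) b * MvPolynomial.map ev F)) := by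
        rw [hF1, ← Res_chg, map_mul, map_mul, map_pow, map_X, Ec_chg]
      rw [e7, hQX, hev, chg_eval_C, ← hev, hevX]
    rw [e6, ← Res_rename_mul] at e5
    rw [D_split Q b]
    convert e5 using 2
    ring

theorem JHP_sub_JD {Λ : Type} [CommRing Λ] [IsDomain Λ] [Algebra ℚ Λ] (Q : QD I E B Λ) :
    Q.JHP ⊆ Q.JD := by
  rintro f ⟨F, hF, rfl, hI⟩
  refine ⟨?_, ?_⟩
  · intro σ hσ
    rw [← map_rename, hF σ hσ]
  · obtain ⟨lam, h1, h0⟩ := exists_lam Λ
    have : CharZero (FractionRing (Polynomial Λ)) := by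
      have : CharZero Λ := algebraRat.charZero Λ
      have : CharZero (Polynomial Λ) := inferInstance
      exact charZero_of_injective_algebraMap (IsFractionRing.injective (Polynomial Λ) _)
    refine main (algebraMap (Polynomial Λ) (FractionRing (Polynomial Λ)))
      (IsFractionRing.injective _ _) lam h1 h0 _ Q rfl F hF ?_
    rw [EB_chg, ← map_mul]
    exact I_chg _ _ _ hI

end Vale.Agent.P291.HX.S3
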